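import Claimed.Agent.R316.Pack020_2
import Claimed.Agent.R316.Base.SV.Api

/-!
# Row 316, BP-S7-1b (sub-captain helper126): Proposition 7.1, fields `integrated` and `proper`.  Plan; leaf L-S7-1b-1: pointwise facts (~250 lines)

PROVED (helper11), no `sorry`.

PLAN of the package (charts.tex l. 93-159; `H : HarnackA D` = all chartwise fields of Proposition 7.1, `S7/H1/Defs.lean`).  `A = D.ric t`, `R = D.R t`.
1. `Point.lean`       `A ≤ R h_t`, `R > 0`, ambient forms (`ambQ`), `d_{h_0} = d_g`.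
2. `Along.lean`       chain rule for a space-time function along a curve; the scalar Harnack inequality along a curve: `d/dv R(c v, v) ≥ - R / v - R |c'|²_{h_v}`.
3. `Integrated.lean`  (7.3) with `C = 1` (almost minimizing curves of `h_t` run on `[t, t']`; only `exists_curve_speed_le`), quadratic bound (7.5).
4. `LenDt.lean`       lengths of a FIXED segment in the metrics `h_s`: `len_{h_s} ≤ e^{Λ (t - s) / 2} len_{h_t}`, `d/ds len_{h_s} = - ½ ∫ A(γ', γ')` at `s = t`.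
5. `Index.lean`       Hamilton's trick: `∫₀ˡ A(γ', γ') ≤ C_T (1 + l) / √t` on a minimizing `h_t`-geodesic from `o` (`sv5` of `Base/SV/Api.lean` + (7.5)).
6. `Gronwall.lean`    real variable: continuity + left Dini inequality `f' ≥ - C (1 + f) / √t` ⟹ `1 + f 0 ≤ (1 + f t) e^{2 C √t}`.
7. `Exit.lean`        the exit distance `exitD D L t = inf {d_{h_t}(o, p) | d_g(o, p) ≥ L}`: attained by a minimizing geodesic inside `hcball g o L` (`exists_exit_segment` of `Base/Geod/Api.lean`), continuous, Dini inequality, (7.6).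
8. `Main.lean`        `1 + d_g(o, p) ≤ (1 + d_{h_t}(o, p)) e^{2 C √t}`, properness, `st71 : St71 D`.

RECIPES (this file).
* `h1b_ric_le`: `fc_R_chart` (`Rc` unfolds to `((h)⁻¹ * A).trace.re`), `qf_le_trace_mul (fc_posDef …) (H.ric_pos …).posSemidef`.
* `h1b_R_pos`: chosen chart at `x` (`CMfd.isHol_pΦ`, `co_mem`, `pΦ_co`), `fc_R_chart`, `trace_mul_pos` (`(h)⁻¹` is positive definite: `Matrix.PosDef.inv`; `A ≠ 0` because `A` is positive definite and `0 < n`: evaluate `qf_pos` on `Pi.single ⟨0, I.n_pos⟩ 1`).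
* `h1b_ambQ_*`: `ambQ` unfolds to `qf (· (𝓜.pΦ x) (𝓜.co x)) (coVec …)`.
* `h1b_hdist_zero`: `hdist_mono` in both directions (`leF` from `fc_h_zero`: the difference is `0`, `Matrix.PosSemidef.zero`).
-/

set_option autoImplicit false
set_option linter.unusedSectionVars false
open scoped ContDiff ComplexOrder Topology Matrix

namespace Claimed.Agent.R316

variable {V : Type} [NormedAddCommGroup V] [NormedSpace ℝ V] [FiniteDimensional ℝ V]
variable [MeasurableSpace V] [BorelSpace V]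
variable {n : ℕ} {𝓜 : CMfd V (Fin n)} {g : HFam V (Fin n)} {o : V}
variable (D : FlowData 𝓜 g o)
variable {Φ : CE (Fin n) → V} {U : Set (CE (Fin n))} {s t : ℝ} {z : CE (Fin n)} {x y : V}

/-- `Ric ≤ R h`. -/
theorem h1b_ric_le (H : HarnackA D) (ht : 0 ≤ t) (hΦ : 𝓜.IsHol Φ U) (hz : z ∈ U)
    (X : Fin n → ℂ) : qf (D.ric t Φ z) X ≤ D.R t (Φ z) * qf (D.h t Φ z) X := by
  rw [fc_R_chart D hΦ ht hz]
  exact qf_le_trace_mul (fc_posDef D hΦ ht hz) (H.ric_pos t ht Φ U hΦ z hz).posSemidef X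

theorem h1b_R_pos (I : InitialData 𝓜 g) (H : HarnackA D) (ht : 0 ≤ t) (hx : x ∈ 𝓜.carrier) :
    0 < D.R t x := by
  have hΦ := 𝓜.isHol_pΦ hx
  have hz := 𝓜.co_mem hx
  have h1 := fc_R_chart D hΦ ht hz
  rw [𝓜.pΦ_co hx] at h1
  rw [h1]
  exact trace_mul_pos (fc_posDef D hΦ ht hz).inv (H.ric_pos t ht _ _ hΦ _ hz).posSemidef
    (h1_ne_zero_of_posDef I.n_pos (H.ric_pos t ht _ _ hΦ _ hz))

theorem h1b_ambQ_ric_nonneg (H : HarnackA D) (ht : 0 ≤ t) (hx : x ∈ 𝓜.carrier) (a : V) :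
    0 ≤ ambQ 𝓜 (D.ric t) x a := by
  exact qf_nonneg (H.ric_pos t ht _ _ (𝓜.isHol_pΦ hx) _ (𝓜.co_mem hx)).posSemidef _

theorem h1b_ambQ_ric_le (H : HarnackA D) (ht : 0 ≤ t) (hx : x ∈ 𝓜.carrier) (a : V) :
    ambQ 𝓜 (D.ric t) x a ≤ D.R t x * ambQ 𝓜 (D.h t) x a := by
  have := h1b_ric_le D H ht (𝓜.isHol_pΦ hx) (𝓜.co_mem hx) (coVec (𝓜.pΦ x) (𝓜.co x) a)
  rw [𝓜.pΦ_co hx] at this
  exact this

theorem h1b_ambQ_anti (H : HarnackA D) (hs : 0 ≤ s) (hst : s ≤ t) (hx : x ∈ 𝓜.carrier) (a : V) :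
    ambQ 𝓜 (D.h t) x a ≤ ambQ 𝓜 (D.h s) x a :=
  ambQ_mono (H.mono s t hs hst) hx a

theorem h1b_hdist_anti (I : InitialData 𝓜 g) (H : HarnackA D) (hs : 0 ≤ s) (hst : s ≤ t)
    (hx : x ∈ 𝓜.carrier) (hy : y ∈ 𝓜.carrier) :
    hdist 𝓜 (D.h t) x y ≤ hdist 𝓜 (D.h s) x y :=
  hdist_mono (fc_metric D (hs.trans hst)) (fc_metric D hs) (H.mono s t hs hst) I.conn hx hy

theorem h1b_hdist_zero (I : InitialData 𝓜 g) (hx : x ∈ 𝓜.carrier) (hy : y ∈ 𝓜.carrier) :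
    hdist 𝓜 (D.h 0) x y = hdist 𝓜 g x y := by
  have hm0 : IsMetric 𝓜 (D.h 0) := fc_metric D le_rfl
  have hg : IsMetric 𝓜 g := I.kahler.toIsMetric
  refine le_antisymm (hdist_mono hm0 hg ?_ I.conn hx hy) (hdist_mono hg hm0 ?_ I.conn hx hy)
  · intro Φ U hΦ z hz
    rw [fc_h_zero D hΦ hz, sub_self]
    exact Matrix.PosSemidef.zero
  · intro Φ U hΦ z hz
    rw [fc_h_zero D hΦ hz, sub_self]
    exact Matrix.PosSemidef.zero

end Claimed.Agent.R316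

/-!
# Row 316, BP-S7-1b, leaf L-S7-1b-2: chain rule along curves in space-time; the scalar Harnack inequality along a curve (~450 lines)

PROVED (helper11), no `sorry`.

RECIPES.
* `h1b_hasDerivAt_along`: `x = c v ∈ carrier` (`hmem.self_of_nhds`), `Φ = 𝓜.pΦ x`, `U = 𝓜.pU x`, `ζ = Function.invFunOn Φ U ∘ c`.
  `IsParam.hasFDerivAt_invFunOn_comp` (`CM/Param.lean`): `ζ` is differentiable at `v`; `IsParam.coVec_deriv`: `deriv ζ v = coVec Φ (𝓜.co x) (deriv c v)` (`𝓜.co x = invFunOn Φ U x` by definition).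
  `c s = Φ (ζ s)` for `s` near `v`: `c` is continuous at `v`, `c s ∈ carrier`, so `c s ∈ Φ '' U` eventually (`IsParam.image`: `Φ '' U = carrier ∩ W`, `W` open), `IsParam.rightInv`.
  `F q = u q.1 (Φ q.2)` is `ContDiffOn ℝ ∞` on `Ici 0 ×ˢ U`, a neighbourhood of `(v, ζ v)` (`Ici_mem_nhds hv`, `prod_mem_nhds`): `HasFDerivAt F (fderiv ℝ F (v, ζ v))`.
  `HasFDerivAt.comp_hasDerivAt` with `s ↦ (s, ζ s)`; split `fderiv F (1, ζ') = fderiv F (1, 0) + fderiv F (0, ζ')`; the two partial derivatives are the derivatives of the slices (compose `F` with `s ↦ (s, ζ v)`, `w ↦ (v, w)`; or `fderiv_slice_eq`, `derivWithin_slice_eq` of `CM/FormsST.lean` / `S7/H1/Param.lean`).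
  `HasDerivAt.congr_of_eventuallyEq`.
* `h1b_ambD_eq`: `ambD` unfolds, `fderiv_real_eq` (`CW/Basic.lean`), `grad10`, `mul_comm`.
* `h1b_dR_along`: `R' = deriv (fun s => D.R s x) v + ambD 𝓜 (D.R v) x (deriv c v)`; `H.scalar v hv Φ U _ (𝓜.co x) _ X` with `X = coVec Φ (𝓜.co x) (deriv c v)`; `CMfd.pΦ_co`; `h1b_ric_le`; `ambQ` unfolds to `qf (D.h v Φ (𝓜.co x)) X`.
-/

set_option autoImplicit false
set_option linter.unusedSectionVars false
open scoped ContDiff ComplexOrder Topology Matrix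

namespace Claimed.Agent.R316

variable {V : Type} [NormedAddCommGroup V] [NormedSpace ℝ V] [FiniteDimensional ℝ V]

section general

variable {ι : Type} [Fintype ι] [DecidableEq ι] {𝓜 : CMfd V ι}

/-- chain rule: `d/ds u(s, c s) = u_t + du(c')`. -/
theorem h1b_hasDerivAt_along {u : ℝ → V → ℝ} (hu : 𝓜.SmoothST (Set.Ici 0) u) {c : ℝ → V} {v : ℝ}
    (hv : 0 < v) (hc : DifferentiableAt ℝ c v) (hmem : ∀ᶠ s in 𝓝 v, c s ∈ 𝓜.carrier) :
    HasDerivAt (fun s => u s (c s))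
      (deriv (fun s => u s (c v)) v + ambD 𝓜 (u v) (c v) (deriv c v)) v := by
  have hx : c v ∈ 𝓜.carrier := hmem.self_of_nhds
  have hΦ := 𝓜.isHol_pΦ hx
  have hp := 𝓜.isParam hΦ
  have himg : c v ∈ 𝓜.pΦ (c v) '' 𝓜.pU (c v) := 𝓜.mem_image_pΦ hx
  obtain ⟨hζd, -⟩ := hp.hasFDerivAt_invFunOn_comp hc hmem himg
  have hζ' := hp.coVec_deriv hc hmem himg
  have hco : 𝓜.pΦ (c v) (𝓜.co (c v)) = c v := 𝓜.pΦ_co hx
  have hcomem := 𝓜.co_mem hx
  set Φ := 𝓜.pΦ (c v) with hΦdef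
  set U := 𝓜.pU (c v) with hUdef
  set ζ : ℝ → CE ι := Function.invFunOn Φ U ∘ c with hζ
  have hζv : ζ v = 𝓜.co (c v) := rfl
  have hev : ∀ᶠ s in 𝓝 v, c s = Φ (ζ s) := by
    obtain ⟨W, hW, hWeq⟩ := hp.image
    have hcW : c v ∈ W := (hWeq ▸ himg : c v ∈ 𝓜.carrier ∩ W).2
    filter_upwards [hmem, hc.continuousAt.eventually (hW.mem_nhds hcW)] with s h1 h2
    exact (hp.rightInv (hWeq ▸ (⟨h1, h2⟩ : c s ∈ 𝓜.carrier ∩ W))).symm
  have hF : ContDiffOn ℝ ∞ (fun q : ℝ × CE ι => u q.1 (Φ q.2)) (Set.Ici 0 ×ˢ U) := hu Φ U hΦ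
  have hnhds : Set.Ici (0 : ℝ) ×ˢ U ∈ 𝓝 (v, ζ v) :=
    prod_mem_nhds (Ici_mem_nhds hv) (hp.isOpen.mem_nhds hcomem)
  have hFd : HasFDerivAt (fun q : ℝ × CE ι => u q.1 (Φ q.2))
      (fderiv ℝ (fun q : ℝ × CE ι => u q.1 (Φ q.2)) (v, ζ v)) (v, ζ v) :=
    ((hF.contDiffAt hnhds).differentiableAt (by simp)).hasFDerivAt
  have hpath : HasDerivAt (fun s => (s, ζ s)) ((1 : ℝ), deriv ζ v) v :=
    (hasDerivAt_id v).prodMk hζd.hasDerivAt
  have h1 : HasDerivAt (fun s => u s (Φ (ζ s)))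
      (fderiv ℝ (fun q : ℝ × CE ι => u q.1 (Φ q.2)) (v, ζ v) (1, deriv ζ v)) v :=
    by have := hFd.comp_hasDerivAt v hpath; exact this
  have hs1 : HasDerivAt (fun s => u s (Φ (ζ v)))
      (fderiv ℝ (fun q : ℝ × CE ι => u q.1 (Φ q.2)) (v, ζ v) (1, 0)) v :=
    by have := hFd.comp_hasDerivAt v ((hasDerivAt_id v).prodMk (hasDerivAt_const v (ζ v))); exact this
  have hs2 : HasFDerivAt (fun w => u v (Φ w))
      ((fderiv ℝ (fun q : ℝ × CE ι => u q.1 (Φ q.2)) (v, ζ v)).comp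
        (ContinuousLinearMap.inr ℝ ℝ (CE ι))) (ζ v) :=
    hFd.comp (ζ v) (hasFDerivAt_prodMk_right v (ζ v))
  have e1 : deriv (fun s => u s (c v)) v
      = fderiv ℝ (fun q : ℝ × CE ι => u q.1 (Φ q.2)) (v, ζ v) (1, 0) := by
    rw [← hs1.deriv, hζv, hco]
  have e2 : ambD 𝓜 (u v) (c v) (deriv c v)
      = fderiv ℝ (fun q : ℝ × CE ι => u q.1 (Φ q.2)) (v, ζ v) (0, deriv ζ v) := by
    have : ambD 𝓜 (u v) (c v) (deriv c v)
        = fderiv ℝ (fun w => u v (Φ w)) (ζ v) (coVec Φ (ζ v) (deriv c v)) := rfl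
    rw [this, hs2.fderiv]
    have h3 : coVec Φ (ζ v) (deriv c v) = deriv ζ v := hζ'
    rw [h3]
    rfl
  have e3 : fderiv ℝ (fun q : ℝ × CE ι => u q.1 (Φ q.2)) (v, ζ v) (1, deriv ζ v)
      = deriv (fun s => u s (c v)) v + ambD 𝓜 (u v) (c v) (deriv c v) := by
    rw [e1, e2, ← map_add]
    simp
  rw [e3] at h1
  refine h1.congr_of_eventuallyEq ?_
  filter_upwards [hev] with s hs
  rw [hs]

theorem h1b_ambD_eq {u : V → ℝ} (hu : 𝓜.Smooth u) {x : V} (hx : x ∈ 𝓜.carrier) (a : V) :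
    ambD 𝓜 u x a = 2 * (∑ k, coVec (𝓜.pΦ x) (𝓜.co x) a k *
      dz k (fun w => ((u (𝓜.pΦ x w) : ℝ) : ℂ)) (𝓜.co x)).re := by
  have hd : DifferentiableAt ℝ (u ∘ 𝓜.pΦ x) (𝓜.co x) :=
    ((hu _ _ (𝓜.isHol_pΦ hx)).contDiffAt
      ((𝓜.isParam (𝓜.isHol_pΦ hx)).isOpen.mem_nhds (𝓜.co_mem hx))).differentiableAt (by simp)
  unfold ambD
  rw [fderiv_real_eq _ hd]
  congr 2
  refine Finset.sum_congr rfl fun k _ => ?_
  rw [mul_comm]
  rfl

end general

variable [MeasurableSpace V] [BorelSpace V]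
variable {n : ℕ} {𝓜 : CMfd V (Fin n)} {g : HFam V (Fin n)} {o : V}
variable (D : FlowData 𝓜 g o)

/-- the scalar Harnack inequality along a curve. -/
theorem h1b_dR_along (H : HarnackA D) {c : ℝ → V} {v : ℝ} (hv : 0 < v)
    (hc : DifferentiableAt ℝ c v) (hmem : ∀ᶠ s in 𝓝 v, c s ∈ 𝓜.carrier) :
    ∃ R' : ℝ, HasDerivAt (fun s => D.R s (c s)) R' v ∧
      - (D.R v (c v) / v) - D.R v (c v) * ambQ 𝓜 (D.h v) (c v) (deriv c v) ≤ R' := by
  have hx : c v ∈ 𝓜.carrier := hmem.self_of_nhds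
  refine ⟨_, h1b_hasDerivAt_along D.R_smooth hv hc hmem, ?_⟩
  have h1 := H.scalar v hv _ _ (𝓜.isHol_pΦ hx) _ (𝓜.co_mem hx)
    (coVec (𝓜.pΦ (c v)) (𝓜.co (c v)) (deriv c v))
  rw [𝓜.pΦ_co hx, ← h1b_ambD_eq (D.R_smooth.smooth (t := v) hv.le) hx] at h1
  have h2 := h1b_ambQ_ric_le D H hv.le hx (deriv c v)
  have h3 : qf (D.ric v (𝓜.pΦ (c v)) (𝓜.co (c v))) (coVec (𝓜.pΦ (c v)) (𝓜.co (c v)) (deriv c v))
      = ambQ 𝓜 (D.ric v) (c v) (deriv c v) := rfl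
  rw [h3] at h1
  linarith

end Claimed.Agent.R316

/-!
# Row 316, BP-S7-1b, leaf L-S7-1b-3: the integrated Harnack inequality (7.3) and the quadratic curvature bound (7.5) (~550 lines)

PROVED (helper11), no `sorry`.

RECIPES.
* `h1b_integrated_curve`: `τ = t' - t > 0`, `c v = γ ((v - t) / τ)` (differentiable everywhere, in the carrier), `deriv c v = τ⁻¹ • deriv γ ((v - t) / τ)`.
  For `v ∈ [t, t']`: `ambQ (D.h v) (c v) (c' v) ≤ ambQ (D.h t) (c v) (c' v)` (`h1b_ambQ_anti`) `= τ⁻² ambQ (D.h t) (γ ·) (γ' ·)` (`ambQ_smul`, `CMfd.deriv_mem_tangent`) `≤ L² / τ²`.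
  `G v = log (D.R v (c v)) + log v + L² (v - t) / τ²` has `G' = R' / R + 1 / v + L² / τ² ≥ 0` on `[t, t']` (`h1b_dR_along`, `h1b_R_pos`, `HasDerivAt.log`): `monotoneOn_of_deriv_nonneg` (or `image_le_of_deriv_right_le…`) gives `G t ≤ G t'`;
  exponentiate (`Real.exp_log`, `Real.exp_add`): `R(t, γ 0) t ≤ R(t', γ 1) t' e^{L² / τ}`.
* `h1b_integrated`: for every `L > d = hdist 𝓜 (D.h t) x y` take `γ` from `exists_curve_speed_le (fc_metric D ht.le) I.conn hx hy`; `h1b_integrated_curve`; let `L ↓ d` (`le_of_forall_gt…`/`ge_of_tendsto` with the continuous function `L ↦ R(t', y) (t'/t) e^{L² / τ}` along `𝓝[>] d`).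
* `h1b_quad`: `C₀` from `H.R_o_le` (w.l.o.g. `C₀ ≥ 0`: `max C₀ 0`), `d = hdist 𝓜 (D.h t) o x = hdist 𝓜 (D.h t) x o` (`hdist_comm`), `t' = t + 1 + d²`:
  `R(t, x) ≤ C₀ ((t + 1 + d²) / t) e^{d² / (1 + d²)} ≤ C₀ (max T 0 + 1) e (1 + d²) / t`.  `C = C₀ (max T 0 + 1) e`.
-/

set_option autoImplicit false
set_option linter.unusedSectionVars false
open scoped ContDiff ComplexOrder Topology Matrix

namespace Claimed.Agent.R316

variable {V : Type} [NormedAddCommGroup V] [NormedSpace ℝ V] [FiniteDimensional ℝ V]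
variable [MeasurableSpace V] [BorelSpace V]
variable {n : ℕ} {𝓜 : CMfd V (Fin n)} {g : HFam V (Fin n)} {o : V}
variable (D : FlowData 𝓜 g o)

theorem h1b_integrated_curve (I : InitialData 𝓜 g) (H : HarnackA D) {t t' : ℝ} (ht : 0 < t)
    (htt' : t < t') {γ : ℝ → V} (hγ : IsC1Curve 𝓜 γ) {L : ℝ}
    (hL : ∀ s, ambQ 𝓜 (D.h t) (γ s) (deriv γ s) ≤ L ^ 2) :
    D.R t (γ 0) ≤ D.R t' (γ 1) * (t' / t) * Real.exp (L ^ 2 / (t' - t)) := by
  set τ := t' - t with hτ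
  have hτ0 : 0 < τ := by rw [hτ]; linarith
  set c : ℝ → V := fun v => γ ((v - t) / τ) with hc
  have hcd : ∀ v, HasDerivAt c (τ⁻¹ • deriv γ ((v - t) / τ)) v := by
    intro v
    have h1 : HasDerivAt (fun v : ℝ => (v - t) / τ) (τ⁻¹) v := by
      simpa [div_eq_mul_inv] using ((hasDerivAt_id v).sub_const t).div_const τ
    exact (hγ.differentiableAt _).hasDerivAt.scomp v h1
  have hmem : ∀ v, c v ∈ 𝓜.carrier := fun v => hγ.2 _
  have hsp : ∀ v, t ≤ v → ambQ 𝓜 (D.h v) (c v) (deriv c v) ≤ L ^ 2 / τ ^ 2 := by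
    intro v hv
    rw [(hcd v).deriv]
    calc ambQ 𝓜 (D.h v) (c v) (τ⁻¹ • deriv γ ((v - t) / τ))
        ≤ ambQ 𝓜 (D.h t) (c v) (τ⁻¹ • deriv γ ((v - t) / τ)) :=
          h1b_ambQ_anti D H ht.le hv (hmem v) _
      _ = (τ⁻¹) ^ 2 * ambQ 𝓜 (D.h t) (γ ((v - t) / τ)) (deriv γ ((v - t) / τ)) :=
          ambQ_smul (hmem v) (hγ.deriv_mem_tangent _) _
      _ ≤ (τ⁻¹) ^ 2 * L ^ 2 := mul_le_mul_of_nonneg_left (hL _) (by positivity)
      _ = L ^ 2 / τ ^ 2 := by field_simp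
  have key : ∀ v, t ≤ v → ∃ Ψ' : ℝ, HasDerivAt
      (fun v => D.R v (c v) * v * Real.exp (L ^ 2 * (v - t) / τ ^ 2)) Ψ' v ∧ 0 ≤ Ψ' := by
    intro v hv
    have hv0 : 0 < v := by linarith
    obtain ⟨R', hR', hle⟩ := h1b_dR_along D H hv0 (hcd v).differentiableAt
      (Filter.Eventually.of_forall hmem)
    have hE : HasDerivAt (fun v => Real.exp (L ^ 2 * (v - t) / τ ^ 2))
        (Real.exp (L ^ 2 * (v - t) / τ ^ 2) * (L ^ 2 / τ ^ 2)) v := by
      have : HasDerivAt (fun v : ℝ => L ^ 2 * (v - t) / τ ^ 2) (L ^ 2 / τ ^ 2) v := by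
        simpa using (((hasDerivAt_id v).sub_const t).const_mul (L ^ 2)).div_const (τ ^ 2)
      exact this.exp
    refine ⟨_, (hR'.mul (hasDerivAt_id v)).mul hE, ?_⟩
    have hR0 := D.R_nonneg v hv0.le _ (hmem v)
    have hE0 := Real.exp_pos (L ^ 2 * (v - t) / τ ^ 2)
    have h6 := hsp v hv
    have h8 := mul_le_mul_of_nonneg_right hle hv0.le
    have h9 : (-(D.R v (c v) / v) - D.R v (c v) * ambQ 𝓜 (D.h v) (c v) (deriv c v)) * v
        = - D.R v (c v) - D.R v (c v) * ambQ 𝓜 (D.h v) (c v) (deriv c v) * v := by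
      field_simp
    have h10 := mul_le_mul_of_nonneg_right (mul_le_mul_of_nonneg_left h6 hR0) hv0.le
    have h5 : 0 ≤ R' * v + D.R v (c v) + D.R v (c v) * (L ^ 2 / τ ^ 2) * v := by linarith
    have e : (R' * id v + D.R v (c v) * 1) * Real.exp (L ^ 2 * (v - t) / τ ^ 2)
        + D.R v (c v) * id v * (Real.exp (L ^ 2 * (v - t) / τ ^ 2) * (L ^ 2 / τ ^ 2))
        = Real.exp (L ^ 2 * (v - t) / τ ^ 2)
          * (R' * v + D.R v (c v) + D.R v (c v) * (L ^ 2 / τ ^ 2) * v) := by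
      simp only [id]; ring
    show 0 ≤ (R' * id v + D.R v (c v) * 1) * Real.exp (L ^ 2 * (v - t) / τ ^ 2)
        + D.R v (c v) * id v * (Real.exp (L ^ 2 * (v - t) / τ ^ 2) * (L ^ 2 / τ ^ 2))
    rw [e]
    exact mul_nonneg hE0.le h5
  have hmono : MonotoneOn (fun v => D.R v (c v) * v * Real.exp (L ^ 2 * (v - t) / τ ^ 2))
      (Set.Icc t t') := by
    refine monotoneOn_of_deriv_nonneg (convex_Icc t t') ?_ ?_ ?_
    · intro v hv
      obtain ⟨_, h1, _⟩ := key v hv.1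
      exact h1.continuousAt.continuousWithinAt
    · intro v hv
      rw [interior_Icc] at hv
      obtain ⟨_, h1, _⟩ := key v hv.1.le
      exact h1.differentiableAt.differentiableWithinAt
    · intro v hv
      rw [interior_Icc] at hv
      obtain ⟨_, h1, h2⟩ := key v hv.1.le
      rw [h1.deriv]
      exact h2
  have h := hmono (Set.left_mem_Icc.2 htt'.le) (Set.right_mem_Icc.2 htt'.le) htt'.le
  have e1 : c t = γ 0 := by simp [hc]
  have e2 : c t' = γ 1 := by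
    simp only [hc]
    rw [← hτ, div_self hτ0.ne']
  have e3 : L ^ 2 * (t' - t) / τ ^ 2 = L ^ 2 / τ := by
    rw [← hτ]; field_simp
  simp only [e1, e2, e3, sub_self, mul_zero, zero_div, Real.exp_zero, mul_one] at h
  have e4 : D.R t' (γ 1) * (t' / t) * Real.exp (L ^ 2 / τ)
      = D.R t' (γ 1) * t' * Real.exp (L ^ 2 / τ) / t := by ring
  rw [e4, le_div_iff₀ ht]
  exact h

/-- **(7.3)** with `C = 1`. -/
theorem h1b_integrated (I : InitialData 𝓜 g) (H : HarnackA D) {t t' : ℝ} (ht : 0 < t)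
    (htt' : t < t') {x y : V} (hx : x ∈ 𝓜.carrier) (hy : y ∈ 𝓜.carrier) :
    D.R t x ≤ D.R t' y * (t' / t) * Real.exp (1 * hdist 𝓜 (D.h t) x y ^ 2 / (t' - t)) := by
  have hcont : Continuous fun L : ℝ => D.R t' y * (t' / t) * Real.exp (1 * L ^ 2 / (t' - t)) := by
    fun_prop
  refine ge_of_tendsto (x := 𝓝[>] (hdist 𝓜 (D.h t) x y))
    ((hcont.tendsto (hdist 𝓜 (D.h t) x y)).mono_left nhdsWithin_le_nhds) ?_
  filter_upwards [self_mem_nhdsWithin] with L hL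
  obtain ⟨γ, hγ, h0, h1, -, hsp⟩ := exists_curve_speed_le (fc_metric D ht.le) I.conn hx hy hL
  have := h1b_integrated_curve D I H ht htt' hγ hsp
  rw [h0, h1] at this
  rw [one_mul]
  exact this

/-- **(7.5)** quadratic curvature bound. -/
theorem h1b_quad (I : InitialData 𝓜 g) (ho : o ∈ 𝓜.carrier) (H : HarnackA D) (T : ℝ) :
    ∃ C : ℝ, 0 ≤ C ∧ ∀ t : ℝ, 0 < t → t ≤ T → ∀ x ∈ 𝓜.carrier,
      D.R t x ≤ C * (1 + hdist 𝓜 (D.h t) o x ^ 2) / t := by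
  obtain ⟨C₀, hC₀⟩ := H.R_o_le
  refine ⟨max C₀ 0 * (max T 0 + 1) * Real.exp 1, by positivity, fun t ht htT x hx => ?_⟩
  set d := hdist 𝓜 (D.h t) o x with hd
  have h1 := h1b_integrated D I H ht (t' := t + 1 + d ^ 2) (by nlinarith [sq_nonneg d]) hx ho
  rw [hdist_comm (fc_metric D ht.le) x o, ← hd] at h1
  have e1 : t + 1 + d ^ 2 - t = 1 + d ^ 2 := by ring
  rw [e1] at h1
  have hd2 : 0 < 1 + d ^ 2 := by positivity
  have e2 : Real.exp (1 * d ^ 2 / (1 + d ^ 2)) ≤ Real.exp 1 := by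
    apply Real.exp_le_exp.2
    rw [div_le_one hd2]
    linarith
  have e3 : D.R (t + 1 + d ^ 2) o ≤ max C₀ 0 :=
    (hC₀ _ (by positivity)).trans (le_max_left _ _)
  have e4 : (t + 1 + d ^ 2) / t ≤ (max T 0 + 1) * (1 + d ^ 2) / t := by
    apply div_le_div_of_nonneg_right _ ht.le
    have : t ≤ max T 0 := htT.trans (le_max_left _ _)
    nlinarith [sq_nonneg d, le_max_right T 0]
  have e5 : 0 < (t + 1 + d ^ 2) / t := by positivity
  calc D.R t x ≤ D.R (t + 1 + d ^ 2) o * ((t + 1 + d ^ 2) / t)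
        * Real.exp (1 * d ^ 2 / (1 + d ^ 2)) := h1
    _ ≤ max C₀ 0 * ((max T 0 + 1) * (1 + d ^ 2) / t) * Real.exp 1 := by
        refine mul_le_mul ?_ e2 (Real.exp_pos _).le
          (mul_nonneg (le_max_right _ _) (e5.le.trans e4))
        calc D.R (t + 1 + d ^ 2) o * ((t + 1 + d ^ 2) / t)
            ≤ max C₀ 0 * ((t + 1 + d ^ 2) / t) := mul_le_mul_of_nonneg_right e3 e5.le
          _ ≤ _ := mul_le_mul_of_nonneg_left e4 (le_max_right _ _)
    _ = _ := by ring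

end Claimed.Agent.R316
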