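
import Claimed.Agent.R316.S7.H1b.Integrated

/-!
# Row 316, BP-S7-1b, leaves L-S7-1b-4 (section `seg`, `time`; ~500 lines) and L-S7-1b-5 (`h1b_len_dt`; ~500 lines): lengths of a fixed segment in the metrics `h_s`

PROVED (helper11), no `sorry`.

## L-S7-1b-4
* `SegIn.continuousOn_ambQ`: at `r₀ ∈ [0, l]` take `Φ = 𝓜.pΦ (γ r₀)`, `ζ = invFunOn Φ U ∘ γ` (`IsParam.contDiffAt_invFunOn_comp`: `C^∞` near `r₀`), `γ = Φ ∘ ζ` near `r₀`, `deriv γ r = fderiv Φ (ζ r) (deriv ζ r)`, so `ambQ 𝓜 A (γ r) (deriv γ r) = qf (A Φ (ζ r)) (deriv ζ r)` (`ambQ_param`), continuous (`IsHForm.smooth`, `qf_eq_sum`).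
* `SegIn.hdist_le_len`: `hdist_le_integral_of_contDiffOn` on `Icc 0 l`; `derivWithin γ (Icc 0 l) r = deriv γ r` for `r ∈ Icc 0 l` when `0 < l` (`DifferentiableAt.derivWithin`, `uniqueDiffOn_Icc`); `l = 0`: `hdist_self`, `len_self`.
* `IsMinGeod.segIn`: unfold `IsMinGeod`, `IsGeodesic`.   `IsMinGeod.len_eq`: `IsMinGeod.ambQ_eq_one`, `intervalIntegral.integral_congr`, `Real.sqrt_one`.
* `h1b_R_bdd`: `D.R_smooth.continuousOn` (`CM/Top.lean`) on the compact `Icc 0 T ×ˢ K` (`IsCompact.exists_bound_of_continuousOn` / `bddAbove_image`); `max · 0`.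
* `h1b_dt_ambQ`: `ambQ` unfolds to `qf (D.h s Φ z) X` with fixed `Φ, z, X`; `qf_eq_sum`; `fc_dt_h` entrywise (`HasDerivAt.sum`, `.const_mul`, `.mul_const`, real part: `HasDerivAt.re`-type lemma / `Complex.reCLM.hasFDerivAt.comp_hasDerivAt`).
* `h1b_continuousOn_ambQ`: `fc_contDiffOn_h` restricted to the line `s ↦ (s, z)`.
* `h1b_ambQ_le_exp`: `φ σ = e^{Λ σ} ambQ (D.h σ) x a` is continuous on `[s, t]`, `φ' = e^{Λ σ} (Λ ambQ(h_σ) - ambQ(A_σ)) ≥ 0` on `(s, t)` (`h1b_ambQ_ric_le`, `ambQ_nonneg`): `monotoneOn_of_deriv_nonneg (convex_Icc s t)`.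
* `h1b_len_le_exp`: `Real.sqrt_le_sqrt`, `Real.sqrt_mul`, `√(e^{Λ (t - s)}) = e^{Λ (t - s) / 2}`, `intervalIntegral.integral_mono_on` (integrability from `SegIn.continuousOn_ambQ`), `intervalIntegral.integral_const_mul`.

## L-S7-1b-5
`h1b_len_dt`: `intervalIntegral.hasDerivAt_integral_of_dominated_loc_of_deriv_le` with `F s r = √(ambQ (D.h s) (γ r) (γ' r))`, `F' s r = - ambQ (D.ric s) (γ r) (γ' r) / (2 √(ambQ (D.h s) (γ r) (γ' r)))`, on the ball `|s - t| < t / 2`, `T = 2 t`, `Λ` from `h1b_R_bdd hK hKM T`.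
  - `γ' r ≠ 0` and tangent (`ambQ_zero`, `CMfd.deriv_mem_tangent`), so `ambQ (D.h s) … > 0` (`ambQ_pos`) and `HasDerivAt.sqrt` applies to `h1b_dt_ambQ`;
  - bound: `|F' s r| ≤ Λ √(ambQ (D.h s) …) / 2 ≤ Λ e^{Λ t} / 2` (`h1b_ambQ_ric_le`, `h1b_ambQ_ric_nonneg`; `ambQ (D.h s) ≤ e^{Λ (2 t - s)} ambQ (D.h (2 t)) ≤ e^{2 Λ t} ambQ (D.h t)`, or: `s ≥ t`: `h1b_ambQ_anti`, `s ≤ t`: `h1b_ambQ_le_exp`);
  - measurability: `SegIn.continuousOn_ambQ` for `D.h s` and `D.ric t` (`fc_metric`, `fc_ric_isHForm`), `ContinuousOn.aestronglyMeasurable`;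
  - at `s = t`: `F' t r = - ambQ (D.ric t) … / 2`; `intervalIntegral.integral_congr`, pull out the constant.
-/

set_option autoImplicit false
set_option linter.unusedSectionVars false
open scoped ContDiff ComplexOrder Topology Matrix

namespace Claimed.Agent.R316

variable {V : Type} [NormedAddCommGroup V] [NormedSpace ℝ V] [FiniteDimensional ℝ V]

/-! ### L-S7-1b-4 -/

section seg

variable {ι : Type} [Fintype ι] [DecidableEq ι] {𝓜 : CMfd V ι} {h A : HFam V ι}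
variable {K : Set V} {γ : ℝ → V} {l : ℝ} {x y : V}

/-- a smooth curve in the manifold, defined on a neighbourhood of `[0, l]`, with values in `K` on `[0, l]`. -/
structure SegIn (𝓜 : CMfd V ι) (K : Set V) (γ : ℝ → V) (l : ℝ) : Prop where
  smooth : ∃ ε > 0, ContDiffOn ℝ ∞ γ (Set.Ioo (-ε) (l + ε)) ∧
    ∀ r ∈ Set.Ioo (-ε) (l + ε), γ r ∈ 𝓜.carrier
  mem : ∀ r ∈ Set.Icc 0 l, γ r ∈ K

theorem SegIn.continuousOn_ambQ (hγ : SegIn 𝓜 K γ l) (hA : IsHForm 𝓜 A) :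
    ContinuousOn (fun r => ambQ 𝓜 A (γ r) (deriv γ r)) (Set.Icc 0 l) := by
  obtain ⟨ε, hε, hsm, hmem⟩ := hγ.smooth
  have h1 := g0_speed_within isOpen_Ioo.uniqueDiffOn hA
    (hsm.of_le (by exact_mod_cast le_top)) hmem
  have h2 : ContinuousOn (fun r => ambQ 𝓜 A (γ r) (deriv γ r)) (Set.Ioo (-ε) (l + ε)) :=
    h1.congr fun r hr => by simp only [derivWithin_of_isOpen isOpen_Ioo hr]
  exact h2.mono fun r hr => ⟨by linarith [hr.1], by linarith [hr.2]⟩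

theorem SegIn.hdist_le_len (hγ : SegIn 𝓜 K γ l) (hl : 0 ≤ l) (hm : IsMetric 𝓜 h) :
    hdist 𝓜 h (γ 0) (γ l) ≤ len 𝓜 h γ 0 l := by
  obtain ⟨ε, hε, hsm, hmem⟩ := hγ.smooth
  have hsub : Set.Icc 0 l ⊆ Set.Ioo (-ε) (l + ε) := fun r hr =>
    ⟨by linarith [hr.1], by linarith [hr.2]⟩
  have h1 := hdist_le_integral_of_contDiffOn hm hl
    ((hsm.mono hsub).of_le (by exact_mod_cast le_top)) (fun r hr => hmem r (hsub hr))
  refine h1.trans (le_of_eq ?_)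
  unfold len
  rcases hl.eq_or_lt with rfl | hl'
  · simp
  refine intervalIntegral.integral_congr fun r hr => ?_
  rw [Set.uIcc_of_le hl] at hr
  have hd : DifferentiableAt ℝ γ r :=
    ((hsm.contDiffAt (isOpen_Ioo.mem_nhds (hsub hr))).differentiableAt (by simp))
  simp only [hd.derivWithin (uniqueDiffOn_Icc hl' r hr)]

theorem IsMinGeod.segIn (hγ : IsMinGeod 𝓜 h γ x y l) (hK : ∀ r ∈ Set.Icc 0 l, γ r ∈ K) :
    SegIn 𝓜 K γ l := by
  obtain ⟨⟨ε, hε, hg⟩, -⟩ := hγ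
  exact ⟨⟨ε, hε, hg.1, hg.2.1⟩, hK⟩

theorem IsMinGeod.len_eq (hk : IsKahler 𝓜 h) (hγ : IsMinGeod 𝓜 h γ x y l) (hl : 0 < l) :
    len 𝓜 h γ 0 l = l := by
  unfold len
  rw [intervalIntegral.integral_congr (g := fun _ => (1 : ℝ))]
  · simp
  · intro r hr
    rw [Set.uIcc_of_le hl.le] at hr
    simp only [hγ.ambQ_eq_one hk hl hr, Real.sqrt_one]

end seg

variable [MeasurableSpace V] [BorelSpace V]
variable {n : ℕ} {𝓜 : CMfd V (Fin n)} {g : HFam V (Fin n)} {o : V}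
variable (D : FlowData 𝓜 g o)
variable {K : Set V} {γ : ℝ → V} {l s t T Λ : ℝ} {x : V}

section time

theorem h1b_R_bdd (hK : IsCompact K) (hKM : K ⊆ 𝓜.carrier) (T : ℝ) :
    ∃ Λ : ℝ, 0 ≤ Λ ∧ ∀ t ∈ Set.Icc (0 : ℝ) T, ∀ x ∈ K, D.R t x ≤ Λ := by
  have hc : ContinuousOn (fun p : ℝ × V => D.R p.1 p.2) (Set.Icc 0 T ×ˢ K) :=
    D.R_smooth.continuousOn.mono (Set.prod_mono (fun t ht => ht.1) hKM)
  obtain ⟨B, hB⟩ := (isCompact_Icc.prod hK).bddAbove_image hc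
  refine ⟨max B 0, le_max_right _ _, fun t ht x hx => ?_⟩
  exact (hB (Set.mem_image_of_mem _ (Set.mk_mem_prod ht hx))).trans (le_max_left _ _)

theorem h1b_dt_ambQ (I : InitialData 𝓜 g) (ht : 0 < t) (hx : x ∈ 𝓜.carrier) (a : V) :
    HasDerivAt (fun s => ambQ 𝓜 (D.h s) x a) (- ambQ 𝓜 (D.ric t) x a) t := by
  have hΦ := 𝓜.isHol_pΦ hx
  have hz := 𝓜.co_mem hx
  have h1 := griff_hasDerivAt_qf (M := fun s => D.h s (𝓜.pΦ x) (𝓜.co x))
    (M' := - D.ric t (𝓜.pΦ x) (𝓜.co x)) (y := fun _ => coVec (𝓜.pΦ x) (𝓜.co x) a) (y' := 0)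
    (t := t) (fun j k => fc_dt_h D I.kahler.toIsMetric hΦ ht hz j k)
    (fc_posDef D hΦ ht.le hz).isHermitian (fun j => hasDerivAt_const t _)
  rw [Matrix.mulVec_zero, dotProduct_zero, Complex.zero_re, mul_zero, add_zero, qf_neg] at h1
  exact h1

theorem h1b_continuousOn_ambQ (I : InitialData 𝓜 g) (hx : x ∈ 𝓜.carrier) (a : V) :
    ContinuousOn (fun s => ambQ 𝓜 (D.h s) x a) (Set.Ici 0) := by
  have hΦ := 𝓜.isHol_pΦ hx
  have hz := 𝓜.co_mem hx
  have h1 : ContDiffOn ℝ ∞ (fun s => qf (D.h s (𝓜.pΦ x) (𝓜.co x))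
      (coVec (𝓜.pΦ x) (𝓜.co x) a)) (Set.Ici 0) :=
    contDiffOn_qf (H := fun s => D.h s (𝓜.pΦ x) (𝓜.co x))
      (v := fun _ => coVec (𝓜.pΦ x) (𝓜.co x) a)
      (fun j k => contDiffOn_timeline
        (F := fun q : ℝ × CE (Fin n) => D.h q.1 (𝓜.pΦ x) q.2 j k)
        (fc_contDiffOn_h D I.kahler.toIsMetric hΦ j k) hz)
      (fun j => contDiffOn_const)
  exact h1.continuousOn

theorem h1b_ambQ_le_exp (I : InitialData 𝓜 g) (H : HarnackA D)
    (hΛ : ∀ t ∈ Set.Icc (0 : ℝ) T, D.R t x ≤ Λ) (hx : x ∈ 𝓜.carrier) (hs : 0 ≤ s) (hst : s ≤ t)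
    (htT : t ≤ T) (a : V) :
    ambQ 𝓜 (D.h s) x a ≤ Real.exp (Λ * (t - s)) * ambQ 𝓜 (D.h t) x a := by
  have hder : ∀ σ, 0 < σ → HasDerivAt (fun σ => Real.exp (Λ * σ) * ambQ 𝓜 (D.h σ) x a)
      (Real.exp (Λ * σ) * Λ * ambQ 𝓜 (D.h σ) x a
        + Real.exp (Λ * σ) * (- ambQ 𝓜 (D.ric σ) x a)) σ := by
    intro σ hσ
    have h1 : HasDerivAt (fun σ : ℝ => Real.exp (Λ * σ)) (Real.exp (Λ * σ) * Λ) σ := by
      simpa using ((hasDerivAt_id σ).const_mul Λ).exp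
    exact h1.mul (h1b_dt_ambQ D I hσ hx a)
  have hmono : MonotoneOn (fun σ => Real.exp (Λ * σ) * ambQ 𝓜 (D.h σ) x a) (Set.Icc s t) := by
    refine monotoneOn_of_deriv_nonneg (convex_Icc s t) ?_ ?_ ?_
    · refine ContinuousOn.mul (by fun_prop) ?_
      exact (h1b_continuousOn_ambQ D I hx a).mono fun σ hσ => hs.trans hσ.1
    · intro σ hσ
      rw [interior_Icc] at hσ
      exact (hder σ (hs.trans_lt hσ.1)).differentiableAt.differentiableWithinAt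
    · intro σ hσ
      rw [interior_Icc] at hσ
      have hσ0 : 0 < σ := hs.trans_lt hσ.1
      rw [(hder σ hσ0).deriv]
      have h2 := h1b_ambQ_ric_le D H hσ0.le hx a
      have h3 := ambQ_nonneg (fc_metric D hσ0.le) hx a
      have h4 := hΛ σ ⟨hσ0.le, hσ.2.le.trans htT⟩
      have h5 := mul_le_mul_of_nonneg_right h4 h3
      have h6 := Real.exp_pos (Λ * σ)
      have e : Real.exp (Λ * σ) * Λ * ambQ 𝓜 (D.h σ) x a
          + Real.exp (Λ * σ) * (- ambQ 𝓜 (D.ric σ) x a)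
          = Real.exp (Λ * σ) * (Λ * ambQ 𝓜 (D.h σ) x a - ambQ 𝓜 (D.ric σ) x a) := by ring
      rw [e]
      exact mul_nonneg h6.le (by linarith)
  have h := hmono (Set.left_mem_Icc.2 hst) (Set.right_mem_Icc.2 hst) hst
  simp only at h
  have e : Real.exp (Λ * (t - s)) = Real.exp (Λ * t) / Real.exp (Λ * s) := by
    rw [← Real.exp_sub]; ring_nf
  rw [e, div_mul_eq_mul_div, le_div_iff₀ (Real.exp_pos _), mul_comm]
  exact h

theorem h1b_len_le_exp (I : InitialData 𝓜 g) (H : HarnackA D)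
    (hΛ : ∀ t ∈ Set.Icc (0 : ℝ) T, ∀ x ∈ K, D.R t x ≤ Λ) (hKM : K ⊆ 𝓜.carrier)
    (hγ : SegIn 𝓜 K γ l) (hl : 0 ≤ l) (hs : 0 ≤ s) (hst : s ≤ t) (htT : t ≤ T) :
    len 𝓜 (D.h s) γ 0 l ≤ Real.exp (Λ * (t - s) / 2) * len 𝓜 (D.h t) γ 0 l := by
  unfold len
  rw [← intervalIntegral.integral_const_mul]
  have hc : ∀ σ, 0 ≤ σ → ContinuousOn
      (fun r => Real.sqrt (ambQ 𝓜 (D.h σ) (γ r) (deriv γ r))) (Set.Icc 0 l) := fun σ hσ =>
    (hγ.continuousOn_ambQ (fc_metric D hσ).toIsHForm).sqrt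
  refine intervalIntegral.integral_mono_on hl ?_ ?_ ?_
  · exact ContinuousOn.intervalIntegrable (by rw [Set.uIcc_of_le hl]; exact hc s hs)
  · exact ContinuousOn.intervalIntegrable (by
      rw [Set.uIcc_of_le hl]; exact continuousOn_const.mul (hc t (hs.trans hst)))
  · intro r hr
    have hx := hKM (hγ.mem r hr)
    have h1 := h1b_ambQ_le_exp D I H (fun t ht => hΛ t ht _ (hγ.mem r hr)) hx hs hst htT
      (deriv γ r)
    have h2 := Real.sqrt_le_sqrt h1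
    rw [Real.sqrt_mul (Real.exp_pos _).le] at h2
    have e : Real.sqrt (Real.exp (Λ * (t - s))) = Real.exp (Λ * (t - s) / 2) := by
      rw [Real.sqrt_eq_iff_mul_self_eq (Real.exp_pos _).le (Real.exp_pos _).le, ← Real.exp_add]
      ring_nf
    rw [e] at h2
    exact h2

end time

/-! ### L-S7-1b-5 -/

/-- pointwise part of `h1b_len_dt`. -/
theorem h1b_len_dt_aux (I : InitialData 𝓜 g) (H : HarnackA D) (hx : x ∈ 𝓜.carrier) {a : V}
    (ha : a ∈ 𝓜.tangent x) (ht : 0 < t) (hunit : ambQ 𝓜 (D.h t) x a = 1) (hΛ0 : 0 ≤ Λ)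
    (hΛ : ∀ σ ∈ Set.Icc (0 : ℝ) (2 * t), D.R σ x ≤ Λ) (hs : s ∈ Set.Ioo (t / 2) (2 * t)) :
    HasDerivAt (fun s => Real.sqrt (ambQ 𝓜 (D.h s) x a))
      (- ambQ 𝓜 (D.ric s) x a / (2 * Real.sqrt (ambQ 𝓜 (D.h s) x a))) s ∧
    ‖- ambQ 𝓜 (D.ric s) x a / (2 * Real.sqrt (ambQ 𝓜 (D.h s) x a))‖
      ≤ Λ * Real.sqrt (Real.exp (Λ * (2 * t))) / 2 := by
  have ha0 : a ≠ 0 := by
    rintro rfl
    rw [ambQ_zero hx] at hunit
    norm_num at hunit
  have hs0 : 0 < s := by linarith [hs.1]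
  have hQ : 0 < ambQ 𝓜 (D.h s) x a := ambQ_pos (fc_metric D hs0.le) hx ha ha0
  refine ⟨(h1b_dt_ambQ D I hs0 hx a).sqrt hQ.ne', ?_⟩
  have hr0 := h1b_ambQ_ric_nonneg D H hs0.le hx a
  have hr1 := h1b_ambQ_ric_le D H hs0.le hx a
  have hR := hΛ s ⟨hs0.le, hs.2.le⟩
  have hQle : ambQ 𝓜 (D.h s) x a ≤ Real.exp (Λ * (2 * t)) := by
    have h1 := h1b_ambQ_le_exp D I H hΛ hx hs0.le hs.2.le le_rfl a
    have h2 : ambQ 𝓜 (D.h (2 * t)) x a ≤ 1 := by
      rw [← hunit]; exact h1b_ambQ_anti D H ht.le (by linarith) hx a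
    have h3 : Real.exp (Λ * (2 * t - s)) ≤ Real.exp (Λ * (2 * t)) :=
      Real.exp_le_exp.2 (mul_le_mul_of_nonneg_left (by linarith) hΛ0)
    calc ambQ 𝓜 (D.h s) x a ≤ Real.exp (Λ * (2 * t - s)) * ambQ 𝓜 (D.h (2 * t)) x a := h1
      _ ≤ Real.exp (Λ * (2 * t - s)) * 1 := mul_le_mul_of_nonneg_left h2 (Real.exp_pos _).le
      _ ≤ _ := by rw [mul_one]; exact h3
  have hsq : 0 < Real.sqrt (ambQ 𝓜 (D.h s) x a) := Real.sqrt_pos.2 hQ
  rw [norm_div, norm_neg, Real.norm_of_nonneg hr0, Real.norm_of_nonneg (by positivity),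
    div_le_iff₀ (by positivity)]
  have h4 := Real.sqrt_le_sqrt hQle
  have h5 := Real.mul_self_sqrt hQ.le
  calc ambQ 𝓜 (D.ric s) x a ≤ D.R s x * ambQ 𝓜 (D.h s) x a := hr1
    _ ≤ Λ * ambQ 𝓜 (D.h s) x a := mul_le_mul_of_nonneg_right hR hQ.le
    _ = Λ * (Real.sqrt (ambQ 𝓜 (D.h s) x a) * Real.sqrt (ambQ 𝓜 (D.h s) x a)) := by rw [h5]
    _ ≤ Λ * (Real.sqrt (Real.exp (Λ * (2 * t))) * Real.sqrt (ambQ 𝓜 (D.h s) x a)) :=
        mul_le_mul_of_nonneg_left (mul_le_mul_of_nonneg_right h4 hsq.le) hΛ0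
    _ = _ := by ring

/-- metric variation formula: `d/ds len_{h_s}(γ) = - ½ ∫ Ric(γ', γ')` at `s = t`, if `γ` has unit `h_t`-speed. -/
theorem h1b_len_dt (I : InitialData 𝓜 g) (H : HarnackA D) (hK : IsCompact K)
    (hKM : K ⊆ 𝓜.carrier) (hγ : SegIn 𝓜 K γ l) (hl : 0 ≤ l) (ht : 0 < t)
    (hunit : ∀ r ∈ Set.Icc 0 l, ambQ 𝓜 (D.h t) (γ r) (deriv γ r) = 1) :
    HasDerivAt (fun s => len 𝓜 (D.h s) γ 0 l)
      (-(1 / 2) * ∫ r in (0 : ℝ)..l, ambQ 𝓜 (D.ric t) (γ r) (deriv γ r)) t := by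
  obtain ⟨Λ, hΛ0, hΛ⟩ := h1b_R_bdd D hK hKM (2 * t)
  have hsubI : Set.uIoc 0 l ⊆ Set.Icc 0 l := by
    rw [Set.uIoc_of_le hl]; exact Set.Ioc_subset_Icc_self
  have hc : ∀ σ, 0 ≤ σ → ContinuousOn
      (fun r => Real.sqrt (ambQ 𝓜 (D.h σ) (γ r) (deriv γ r))) (Set.Icc 0 l) := fun σ hσ =>
    (hγ.continuousOn_ambQ (fc_metric D hσ).toIsHForm).sqrt
  have htan : ∀ r ∈ Set.Icc 0 l, deriv γ r ∈ 𝓜.tangent (γ r) := by
    intro r hr
    obtain ⟨ε, hε, hsm, hmem⟩ := hγ.smooth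
    have hrI : r ∈ Set.Ioo (-ε) (l + ε) := ⟨by linarith [hr.1], by linarith [hr.2]⟩
    refine CMfd.deriv_mem_tangent
      ((hsm.contDiffAt (isOpen_Ioo.mem_nhds hrI)).differentiableAt (by simp)) ?_
    filter_upwards [isOpen_Ioo.mem_nhds hrI] with r' hr' using hmem r' hr'
  have haux : ∀ r ∈ Set.Icc 0 l, ∀ s ∈ Set.Ioo (t / 2) (2 * t), _ := fun r hr s hs =>
    h1b_len_dt_aux D I H (hKM (hγ.mem r hr)) (htan r hr) ht (hunit r hr) hΛ0
      (fun σ hσ => hΛ σ hσ _ (hγ.mem r hr)) hs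
  have key := intervalIntegral.hasDerivAt_integral_of_dominated_loc_of_deriv_le
    (μ := MeasureTheory.volume) (a := 0) (b := l)
    (F := fun s r => Real.sqrt (ambQ 𝓜 (D.h s) (γ r) (deriv γ r)))
    (F' := fun s r => - ambQ 𝓜 (D.ric s) (γ r) (deriv γ r)
      / (2 * Real.sqrt (ambQ 𝓜 (D.h s) (γ r) (deriv γ r))))
    (x₀ := t) (s := Set.Ioo (t / 2) (2 * t))
    (bound := fun _ => Λ * Real.sqrt (Real.exp (Λ * (2 * t))) / 2)
    (Ioo_mem_nhds (by linarith) (by linarith)) ?_ ?_ ?_ ?_ ?_ ?_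
  · have h2 := key.2
    have e : ∫ r in (0 : ℝ)..l, - ambQ 𝓜 (D.ric t) (γ r) (deriv γ r)
        / (2 * Real.sqrt (ambQ 𝓜 (D.h t) (γ r) (deriv γ r)))
        = -(1 / 2) * ∫ r in (0 : ℝ)..l, ambQ 𝓜 (D.ric t) (γ r) (deriv γ r) := by
      rw [← intervalIntegral.integral_const_mul]
      refine intervalIntegral.integral_congr fun r hr => ?_
      rw [Set.uIcc_of_le hl] at hr
      simp only [hunit r hr, Real.sqrt_one]
      ring
    rw [e] at h2
    exact h2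
  · filter_upwards [Ioi_mem_nhds ht] with σ hσ
    exact ((hc σ (le_of_lt hσ)).aestronglyMeasurable measurableSet_Icc).mono_set hsubI
  · exact ContinuousOn.intervalIntegrable (by rw [Set.uIcc_of_le hl]; exact hc t ht.le)
  · refine (ContinuousOn.aestronglyMeasurable ?_ measurableSet_Icc).mono_set hsubI
    refine ContinuousOn.div (hγ.continuousOn_ambQ (fc_ric_isHForm D ht.le)).neg
      (continuousOn_const.mul (hc t ht.le)) ?_
    intro r hr
    simp only [hunit r hr, Real.sqrt_one]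
    norm_num
  · exact Filter.Eventually.of_forall fun r hr s hs => (haux r (hsubI hr) s hs).2
  · exact intervalIntegrable_const
  · exact Filter.Eventually.of_forall fun r hr s hs => (haux r (hsubI hr) s hs).1

end Claimed.Agent.R316

/-!
# Row 316, BP-S7-1b, leaf L-S7-1b-6: Hamilton's trick, `∫ Ric(γ', γ') ≤ C (1 + l) / √t` (~600 lines)

PROVED (helper11), no `sorry`.

RECIPES.
* `h1b_cutoff`: `S = Real.smoothTransition` (`C^∞`, `0` on `(-∞, 0]`, `1` on `[1, ∞)`, values in `[0, 1]`).  `deriv S` is continuous and vanishes outside `[0, 1]`, hence bounded: `|deriv S| ≤ M₀` (`IsCompact.exists_bound_of_continuousOn` on `Icc 0 1`; outside, `S` is locally constant).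
  `φ σ = S (σ / a) * S ((l - σ) / a)`.  For `σ ≤ l / 2`: `(l - σ) / a ≥ 1`, so `φ = S (σ / a)` near… (careful at `σ = l / 2` when `l = 2 a`: use the product rule everywhere instead: `|φ'| ≤ 2 M₀ / a` everywhere, and `φ' = 0` on `(a, l - a)` where `φ = 1` locally).
  `∫₀ˡ φ'² = ∫₀ᵃ + ∫ₐ^{l-a} + ∫_{l-a}^l ≤ 2 a (2 M₀ / a)² = 8 M₀² / a`.  `M = 8 M₀² + 1`.
* `h1b_int_ric_le`: `ρ σ = ambQ 𝓜 (ricF h) (γ σ) (deriv γ σ)` is continuous on `[0, l]` (`SegIn.continuousOn_ambQ`, `IsMinGeod.segIn` with `K = univ`, `isHForm_ricF`).  `sv5` with `φ` from `h1b_cutoff`: `2 ∫ φ² ρ ≤ (2 n - 1) M / a`.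
  `∫ ρ = ∫ φ² ρ + ∫ (1 - φ²) ρ`, and `(1 - φ²) ρ ≤ B` on `[0, a] ∪ [l - a, l]`, `= 0` on `[a, l - a]` (`intervalIntegral.integral_add_adjacent_intervals`, `integral_mono_on`).
* `h1b_int_ric_flow`: `Cq` from `h1b_quad D I ho H T`, `M` from `h1b_int_ric_le`; `C = n M + 2 Cq`.  `D.ric t = ricF (D.h t)` by definition.
  On the segment: `ρ σ ≤ D.R t (γ σ) * 1` (`h1b_ambQ_ric_le`, `IsMinGeod.ambQ_eq_one`) `≤ Cq (1 + σ²) / t ≤ B := Cq (1 + l²) / t` (`hdist 𝓜 (D.h t) o (γ σ) = |0 - σ| = σ` from the last clause of `IsMinGeod`, `γ 0 = o`).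
  `a = √t / (1 + l)`.  If `2 a ≤ l`: `n M / a + 2 a B = n M (1 + l) / √t + 2 Cq (1 + l²) / ((1 + l) √t) ≤ C (1 + l) / √t` (`1 + l² ≤ (1 + l)²`, `t = √t √t`).
  If `l < 2 a`: `∫ ρ ≤ l B ≤ 2 a B ≤ 2 Cq (1 + l) / √t`.
-/

set_option autoImplicit false
set_option linter.unusedSectionVars false
open scoped ContDiff ComplexOrder Topology Matrix

namespace Claimed.Agent.R316

theorem h1b_deriv_smoothTransition_bdd :
    ∃ M₀ : ℝ, 0 ≤ M₀ ∧ ∀ u : ℝ, |deriv Real.smoothTransition u| ≤ M₀ := by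
  have hc : Continuous (deriv Real.smoothTransition) :=
    (Real.smoothTransition.contDiff (n := 1)).continuous_deriv le_rfl
  obtain ⟨B, hB⟩ := isCompact_Icc.exists_bound_of_continuousOn (s := Set.Icc (0 : ℝ) 1)
    hc.continuousOn
  refine ⟨max B 0, le_max_right _ _, fun u => ?_⟩
  by_cases hu : u ∈ Set.Icc (0 : ℝ) 1
  · exact (hB u hu).trans (le_max_left _ _)
  · have h0 : deriv Real.smoothTransition u = 0 := by
      rw [Set.mem_Icc, not_and_or, not_le, not_le] at hu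
      rcases hu with hu | hu
      · have : Real.smoothTransition =ᶠ[𝓝 u] fun _ => (0 : ℝ) := by
          filter_upwards [Iio_mem_nhds hu] with v hv
          exact Real.smoothTransition.zero_of_nonpos (le_of_lt hv)
        rw [this.deriv_eq, deriv_const]
      · have : Real.smoothTransition =ᶠ[𝓝 u] fun _ => (1 : ℝ) := by
          filter_upwards [Ioi_mem_nhds hu] with v hv
          exact Real.smoothTransition.one_of_one_le (le_of_lt hv)
        rw [this.deriv_eq, deriv_const]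
    rw [h0, abs_zero]
    exact le_max_right _ _

theorem h1b_integral_congr_Ioo {f g : ℝ → ℝ} {a b : ℝ} (hab : a ≤ b)
    (hfg : ∀ t ∈ Set.Ioo a b, f t = g t) : ∫ t in a..b, f t = ∫ t in a..b, g t := by
  rw [intervalIntegral.integral_of_le hab, intervalIntegral.integral_of_le hab,
    MeasureTheory.integral_Ioc_eq_integral_Ioo, MeasureTheory.integral_Ioc_eq_integral_Ioo]
  exact MeasureTheory.setIntegral_congr_fun measurableSet_Ioo hfg

/-- a function on `[0, l]` which is `≤ c` on the two end pieces of length `a` and vanishes between them. -/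
theorem h1b_integral_ends_le {f : ℝ → ℝ} {a l c : ℝ} (ha : 0 < a) (hal : 2 * a ≤ l)
    (hf : ContinuousOn f (Set.Icc 0 l)) (h1 : ∀ σ ∈ Set.Icc 0 a, f σ ≤ c)
    (h2 : ∀ σ ∈ Set.Ioo a (l - a), f σ = 0) (h3 : ∀ σ ∈ Set.Icc (l - a) l, f σ ≤ c) :
    ∫ σ in (0 : ℝ)..l, f σ ≤ 2 * a * c := by
  have hi : ∀ p q : ℝ, 0 ≤ p → p ≤ q → q ≤ l → IntervalIntegrable f MeasureTheory.volume p q := by
    intro p q hp hpq hq
    refine ContinuousOn.intervalIntegrable (hf.mono ?_)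
    rw [Set.uIcc_of_le hpq]
    exact Set.Icc_subset_Icc hp hq
  have i1 := hi 0 a le_rfl ha.le (by linarith)
  have i2 := hi a (l - a) ha.le (by linarith) (by linarith)
  have i3 := hi (l - a) l (by linarith) (by linarith) le_rfl
  rw [← intervalIntegral.integral_add_adjacent_intervals (i1.trans i2) i3,
    ← intervalIntegral.integral_add_adjacent_intervals i1 i2]
  have e1 : ∫ σ in (0 : ℝ)..a, f σ ≤ a * c := by
    have := intervalIntegral.integral_mono_on ha.le i1 (intervalIntegrable_const (c := c)) h1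
    simpa using this
  have e2 : ∫ σ in a..(l - a), f σ = 0 := by
    rw [h1b_integral_congr_Ioo (g := fun _ => (0 : ℝ)) (by linarith) h2]
    simp
  have e3 : ∫ σ in (l - a)..l, f σ ≤ a * c := by
    have := intervalIntegral.integral_mono_on (by linarith) i3 (intervalIntegrable_const (c := c)) h3
    simpa using this
  linarith

theorem h1b_cutoff : ∃ M : ℝ, 0 < M ∧ ∀ a l : ℝ, 0 < a → 2 * a ≤ l →
    ∃ φ : ℝ → ℝ, ContDiff ℝ 1 φ ∧ φ 0 = 0 ∧ φ l = 0 ∧ (∀ σ, 0 ≤ φ σ ∧ φ σ ≤ 1) ∧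
      (∀ σ ∈ Set.Icc a (l - a), φ σ = 1) ∧ ∫ σ in (0 : ℝ)..l, deriv φ σ ^ 2 ≤ M / a := by
  obtain ⟨M₀, hM₀, hS⟩ := h1b_deriv_smoothTransition_bdd
  refine ⟨8 * M₀ ^ 2 + 1, by positivity, fun a l ha hal => ?_⟩
  set φ : ℝ → ℝ := fun σ => Real.smoothTransition (σ / a)
    - Real.smoothTransition ((σ - (l - a)) / a) with hφ
  have hcd : ContDiff ℝ 1 φ := by
    refine ContDiff.sub ?_ ?_
    · exact (Real.smoothTransition.contDiff (n := 1)).comp (contDiff_id.div_const a)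
    · exact (Real.smoothTransition.contDiff (n := 1)).comp
        ((contDiff_id.sub contDiff_const).div_const a)
  have hSd : ∀ u, HasDerivAt Real.smoothTransition (deriv Real.smoothTransition u) u := fun u =>
    ((Real.smoothTransition.contDiff (n := 1)).differentiable (by norm_num) u).hasDerivAt
  have hder : ∀ σ, HasDerivAt φ (deriv Real.smoothTransition (σ / a) * a⁻¹
      - deriv Real.smoothTransition ((σ - (l - a)) / a) * a⁻¹) σ := by
    intro σ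
    have d1 : HasDerivAt (fun σ : ℝ => σ / a) a⁻¹ σ := by
      simpa [div_eq_mul_inv] using (hasDerivAt_id σ).div_const a
    have d2 : HasDerivAt (fun σ : ℝ => (σ - (l - a)) / a) a⁻¹ σ := by
      simpa [div_eq_mul_inv] using ((hasDerivAt_id σ).sub_const (l - a)).div_const a
    exact ((hSd _).comp σ d1).sub ((hSd _).comp σ d2)
  have hfirst : ∀ σ, a ≤ σ → Real.smoothTransition (σ / a) = 1 := fun σ hσ =>
    Real.smoothTransition.one_of_one_le ((one_le_div ha).2 hσ)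
  have hsecond : ∀ σ, σ ≤ l - a → Real.smoothTransition ((σ - (l - a)) / a) = 0 := fun σ hσ =>
    Real.smoothTransition.zero_of_nonpos (div_nonpos_of_nonpos_of_nonneg (by linarith) ha.le)
  have hone : ∀ σ ∈ Set.Icc a (l - a), φ σ = 1 := by
    intro σ hσ
    simp only [hφ, hfirst σ hσ.1, hsecond σ hσ.2, sub_zero]
  have hbd : ∀ σ, deriv φ σ ^ 2 ≤ (2 * M₀ / a) ^ 2 := by
    intro σ
    rw [(hder σ).deriv, ← sq_abs]
    refine pow_le_pow_left₀ (abs_nonneg _) ?_ 2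
    have h1 := hS (σ / a)
    have h2 := hS ((σ - (l - a)) / a)
    have ha' : 0 < a⁻¹ := inv_pos.2 ha
    calc |deriv Real.smoothTransition (σ / a) * a⁻¹
          - deriv Real.smoothTransition ((σ - (l - a)) / a) * a⁻¹|
        ≤ |deriv Real.smoothTransition (σ / a) * a⁻¹|
          + |deriv Real.smoothTransition ((σ - (l - a)) / a) * a⁻¹| := abs_sub _ _
      _ = |deriv Real.smoothTransition (σ / a)| * a⁻¹
          + |deriv Real.smoothTransition ((σ - (l - a)) / a)| * a⁻¹ := by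
          rw [abs_mul, abs_mul, abs_of_pos ha']
      _ ≤ M₀ * a⁻¹ + M₀ * a⁻¹ :=
          add_le_add (mul_le_mul_of_nonneg_right h1 ha'.le) (mul_le_mul_of_nonneg_right h2 ha'.le)
      _ = 2 * M₀ / a := by rw [div_eq_mul_inv]; ring
  refine ⟨φ, hcd, ?_, ?_, ?_, hone, ?_⟩
  · simp only [hφ, zero_div, Real.smoothTransition.zero, hsecond 0 (by linarith), sub_zero]
  · have : (l - (l - a)) / a = 1 := by
      rw [sub_sub_cancel, div_self ha.ne']
    simp only [hφ, hfirst l (by linarith), this, Real.smoothTransition.one, sub_self]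
  · intro σ
    constructor
    · rcases le_total σ (l - a) with h | h
      · simp only [hφ, hsecond σ h, sub_zero]
        exact Real.smoothTransition.nonneg _
      · simp only [hφ, hfirst σ (by linarith), sub_nonneg]
        exact Real.smoothTransition.le_one _
    · have h1 := Real.smoothTransition.le_one (σ / a)
      have h2 := Real.smoothTransition.nonneg ((σ - (l - a)) / a)
      simp only [hφ]
      linarith
  · have hcont : Continuous fun σ => deriv φ σ ^ 2 := (hcd.continuous_deriv le_rfl).pow 2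
    have h := h1b_integral_ends_le (f := fun σ => deriv φ σ ^ 2) (c := (2 * M₀ / a) ^ 2) ha hal
      hcont.continuousOn (fun σ _ => hbd σ) ?_ (fun σ _ => hbd σ)
    · refine h.trans ?_
      have e : 2 * a * (2 * M₀ / a) ^ 2 = 8 * M₀ ^ 2 / a := by field_simp; ring
      rw [e]
      exact div_le_div_of_nonneg_right (by linarith) ha.le
    · intro σ hσ
      have : φ =ᶠ[𝓝 σ] fun _ => (1 : ℝ) := by
        filter_upwards [isOpen_Ioo.mem_nhds hσ] with v hv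
        exact hone v ⟨hv.1.le, hv.2.le⟩
      simp only [this.deriv_eq, deriv_const]
      norm_num

variable {V : Type} [NormedAddCommGroup V] [NormedSpace ℝ V] [FiniteDimensional ℝ V]

theorem h1b_int_ric_le : ∃ M : ℝ, 0 < M ∧ ∀ {ι : Type} [Fintype ι] [DecidableEq ι] {𝓜 : CMfd V ι}
    {h : HFam V ι} {γ : ℝ → V} {x y : V} {l B a : ℝ}, IsKahler 𝓜 h → IsConnected 𝓜.carrier →
    IsMinGeod 𝓜 h γ x y l →
    (∀ σ ∈ Set.Icc 0 l, 0 ≤ ambQ 𝓜 (ricF h) (γ σ) (deriv γ σ) ∧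
      ambQ 𝓜 (ricF h) (γ σ) (deriv γ σ) ≤ B) → 0 < a → 2 * a ≤ l →
    ∫ σ in (0 : ℝ)..l, ambQ 𝓜 (ricF h) (γ σ) (deriv γ σ) ≤
      (Fintype.card ι : ℝ) * M / a + 2 * a * B := by
  obtain ⟨M, hM, hcut⟩ := h1b_cutoff
  refine ⟨M, hM, ?_⟩
  intro ι _ _ 𝓜 h γ x y l B a hk hconn hγ hρ ha hal
  obtain ⟨φ, hφ, h0, h1, h01, hone, hint⟩ := hcut a l ha hal
  have hl : 0 < l := by linarith
  have hsv := sv5 hk hconn hγ hl hφ h0 h1
  have hρc : ContinuousOn (fun σ => ambQ 𝓜 (ricF h) (γ σ) (deriv γ σ)) (Set.Icc 0 l) :=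
    (hγ.segIn (K := Set.univ) (fun _ _ => trivial)).continuousOn_ambQ
      (isHForm_ricF hk.toIsMetric)
  have hX : 0 ≤ ∫ σ in (0 : ℝ)..l, deriv φ σ ^ 2 :=
    intervalIntegral.integral_nonneg hl.le (fun _ _ => sq_nonneg _)
  have hn : (0 : ℝ) ≤ (Fintype.card ι : ℝ) := Nat.cast_nonneg _
  have hA : ∫ σ in (0 : ℝ)..l, φ σ ^ 2 * ambQ 𝓜 (ricF h) (γ σ) (deriv γ σ)
      ≤ (Fintype.card ι : ℝ) * M / a := by
    have h2 := mul_le_mul_of_nonneg_left hint hn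
    have e : (Fintype.card ι : ℝ) * M / a = (Fintype.card ι : ℝ) * (M / a) := by ring
    rw [e]
    nlinarith
  have hφc : Continuous φ := hφ.continuous
  have hc1 : ContinuousOn (fun σ => φ σ ^ 2 * ambQ 𝓜 (ricF h) (γ σ) (deriv γ σ)) (Set.Icc 0 l) :=
    ((hφc.pow 2).continuousOn).mul hρc
  have hc2 : ContinuousOn (fun σ => (1 - φ σ ^ 2) * ambQ 𝓜 (ricF h) (γ σ) (deriv γ σ))
      (Set.Icc 0 l) := ((continuous_const.sub (hφc.pow 2)).continuousOn).mul hρc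
  have hle : ∀ σ ∈ Set.Icc 0 l, (1 - φ σ ^ 2) * ambQ 𝓜 (ricF h) (γ σ) (deriv γ σ) ≤ B := by
    intro σ hσ
    obtain ⟨r0, r1⟩ := hρ σ hσ
    obtain ⟨p0, p1⟩ := h01 σ
    have : (1 - φ σ ^ 2) ≤ 1 := by nlinarith
    calc (1 - φ σ ^ 2) * ambQ 𝓜 (ricF h) (γ σ) (deriv γ σ)
        ≤ 1 * ambQ 𝓜 (ricF h) (γ σ) (deriv γ σ) := mul_le_mul_of_nonneg_right this r0
      _ ≤ B := by rw [one_mul]; exact r1
  have hB : ∫ σ in (0 : ℝ)..l, (1 - φ σ ^ 2) * ambQ 𝓜 (ricF h) (γ σ) (deriv γ σ)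
      ≤ 2 * a * B := by
    refine h1b_integral_ends_le ha hal hc2 (fun σ hσ => hle σ ⟨hσ.1, by linarith [hσ.2]⟩) ?_
      (fun σ hσ => hle σ ⟨by linarith [hσ.1], hσ.2⟩)
    intro σ hσ
    simp only [hone σ ⟨hσ.1.le, hσ.2.le⟩]
    norm_num
  have hsum : ∫ σ in (0 : ℝ)..l, ambQ 𝓜 (ricF h) (γ σ) (deriv γ σ)
      = (∫ σ in (0 : ℝ)..l, φ σ ^ 2 * ambQ 𝓜 (ricF h) (γ σ) (deriv γ σ))
        + ∫ σ in (0 : ℝ)..l, (1 - φ σ ^ 2) * ambQ 𝓜 (ricF h) (γ σ) (deriv γ σ) := by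
    rw [← intervalIntegral.integral_add
      (ContinuousOn.intervalIntegrable (by rw [Set.uIcc_of_le hl.le]; exact hc1))
      (ContinuousOn.intervalIntegrable (by rw [Set.uIcc_of_le hl.le]; exact hc2))]
    refine intervalIntegral.integral_congr fun σ _ => ?_
    ring
  rw [hsum]
  exact add_le_add hA hB

variable [MeasurableSpace V] [BorelSpace V]
variable {n : ℕ} {𝓜 : CMfd V (Fin n)} {g : HFam V (Fin n)} {o : V}
variable (D : FlowData 𝓜 g o)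

theorem h1b_int_ric_flow (I : InitialData 𝓜 g) (ho : o ∈ 𝓜.carrier) (H : HarnackA D) (T : ℝ) :
    ∃ C : ℝ, 0 ≤ C ∧ ∀ t : ℝ, 0 < t → t ≤ T → ∀ (γ : ℝ → V) (y : V) (l : ℝ),
      IsMinGeod 𝓜 (D.h t) γ o y l → 0 < l →
      ∫ σ in (0 : ℝ)..l, ambQ 𝓜 (D.ric t) (γ σ) (deriv γ σ) ≤ C * (1 + l) / Real.sqrt t := by
  obtain ⟨Cq, hCq0, hCq⟩ := h1b_quad D I ho H T
  obtain ⟨M, hM, hle⟩ := h1b_int_ric_le (V := V)
  refine ⟨n * M + 2 * Cq, by positivity, fun t ht htT γ y l hγ hl => ?_⟩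
  have hk : IsKahler 𝓜 (D.h t) := D.kahler t ht.le
  have hseg := hγ.segIn (K := Set.univ) (fun _ _ => trivial)
  have hmemγ : ∀ σ ∈ Set.Icc 0 l, γ σ ∈ 𝓜.carrier := by
    intro σ hσ
    obtain ⟨ε, hε, -, hmem⟩ := hseg.smooth
    exact hmem σ ⟨by linarith [hσ.1], by linarith [hσ.2]⟩
  have hρ : ∀ σ ∈ Set.Icc 0 l, 0 ≤ ambQ 𝓜 (ricF (D.h t)) (γ σ) (deriv γ σ) ∧
      ambQ 𝓜 (ricF (D.h t)) (γ σ) (deriv γ σ) ≤ Cq * (1 + l ^ 2) / t := by
    intro σ hσ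
    have hx := hmemγ σ hσ
    refine ⟨h1b_ambQ_ric_nonneg D H ht.le hx _, ?_⟩
    have h1 := h1b_ambQ_ric_le D H ht.le hx (deriv γ σ)
    rw [hγ.ambQ_eq_one hk hl hσ, mul_one] at h1
    have h2 := hCq t ht htT _ hx
    have h3 : hdist 𝓜 (D.h t) o (γ σ) = σ := by
      obtain ⟨-, h0, -, -, hd⟩ := hγ
      have := hd 0 ⟨le_rfl, hl.le⟩ σ hσ
      rw [h0] at this
      rw [this, zero_sub, abs_neg, abs_of_nonneg hσ.1]
    rw [h3] at h2
    refine h1.trans (h2.trans ?_)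
    apply div_le_div_of_nonneg_right _ ht.le
    apply mul_le_mul_of_nonneg_left _ hCq0
    have := pow_le_pow_left₀ hσ.1 hσ.2 2
    linarith
  set w := Real.sqrt t with hw
  have hw0 : 0 < w := Real.sqrt_pos.2 ht
  have htw : t = w ^ 2 := (Real.sq_sqrt ht.le).symm
  have ha : 0 < w / (1 + l) := by positivity
  have e2 : 2 * (w / (1 + l)) * (Cq * (1 + l ^ 2) / t) ≤ 2 * Cq * (1 + l) / w := by
    have e3 : 2 * (w / (1 + l)) * (Cq * (1 + l ^ 2) / t)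
        = 2 * Cq * ((1 + l ^ 2) / (1 + l)) / w := by
      rw [htw]; field_simp
    rw [e3]
    apply div_le_div_of_nonneg_right _ hw0.le
    apply mul_le_mul_of_nonneg_left _ (by positivity)
    rw [div_le_iff₀ (by positivity)]
    nlinarith
  show ∫ σ in (0 : ℝ)..l, ambQ 𝓜 (ricF (D.h t)) (γ σ) (deriv γ σ) ≤ _
  by_cases hal : 2 * (w / (1 + l)) ≤ l
  · have h5 := hle hk I.conn hγ hρ ha hal
    rw [Fintype.card_fin] at h5
    have e1 : (n : ℝ) * M / (w / (1 + l)) = n * M * (1 + l) / w := by field_simp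
    rw [e1] at h5
    refine h5.trans ?_
    have e4 : (n * M + 2 * Cq) * (1 + l) / w = n * M * (1 + l) / w + 2 * Cq * (1 + l) / w := by
      ring
    rw [e4]
    linarith
  · push Not at hal
    have hρc : ContinuousOn (fun σ => ambQ 𝓜 (ricF (D.h t)) (γ σ) (deriv γ σ)) (Set.Icc 0 l) :=
      hseg.continuousOn_ambQ (isHForm_ricF hk.toIsMetric)
    have h6 := intervalIntegral.integral_mono_on hl.le
      (ContinuousOn.intervalIntegrable (by rw [Set.uIcc_of_le hl.le]; exact hρc))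
      (intervalIntegrable_const (μ := MeasureTheory.volume) (c := Cq * (1 + l ^ 2) / t))
      (fun σ hσ => (hρ σ hσ).2)
    rw [intervalIntegral.integral_const, sub_zero, smul_eq_mul] at h6
    have hB0 : 0 ≤ Cq * (1 + l ^ 2) / t := by positivity
    have h7 : l * (Cq * (1 + l ^ 2) / t) ≤ 2 * (w / (1 + l)) * (Cq * (1 + l ^ 2) / t) :=
      mul_le_mul_of_nonneg_right hal.le hB0
    have e4 : (n * M + 2 * Cq) * (1 + l) / w = n * M * (1 + l) / w + 2 * Cq * (1 + l) / w := by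
      ring
    have h8 : 0 ≤ n * M * (1 + l) / w := by positivity
    rw [e4]
    linarith

end Claimed.Agent.R316
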