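import Claimed.Agent.R316.S7.H1b.LenDt

/-!
# Row 316, BP-S7-1b (sub-captain helper126): Gronwall lemma with a left Dini derivative, the exit distance, completeness of `h_t`, Proposition 7.1

No `sorry` in this file.  Input: `S7/H1b/LenDt.lean`, `S7/H1b/Integrated.lean`, `Base/Geod` (`exists_exit_segment`, `IsMinGeod.*`), `Base/Metric`.

* `h1b_gronwall`: `f ≥ 0` continuous on `[0, t₁]`, left Dini inequality `f' ≥ - C (1 + f) / √t`  ⟹  `1 + f 0 ≤ (1 + f t₁) e^{2 C √t₁}` (time reversal + `image_le_of_liminf_slope_right_lt_deriv_boundary'`, barrier with `C + ε`).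
* `exitD D L t = inf {d_{h_t}(o, p) | p ∈ M, d_g(o, p) ≥ L}`: attained along a minimizing `h_t`-geodesic inside the closed initial ball (`exitD_segment`), nonincreasing, continuous, Dini inequality (`exitD_dini`, from `h1b_len_dt` + `h1b_int_ric_flow`).
* `exitD_lower` (7.6), `h1b_dist_lower`, `h1b_proper`, `st71`.
-/

set_option autoImplicit false
set_option linter.unusedSectionVars false
open scoped ContDiff ComplexOrder Topology Matrix

namespace Claimed.Agent.R316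

theorem h1b_gronwall_eps {f : ℝ → ℝ} {C t₁ ε : ℝ} (hC : 0 ≤ C) (ht₁ : 0 < t₁) (hε : 0 < ε)
    (hf : ContinuousOn f (Set.Icc 0 t₁)) (hf0 : ∀ t ∈ Set.Icc 0 t₁, 0 ≤ f t)
    (hD : ∀ t ∈ Set.Ioc 0 t₁, ∀ r : ℝ, C * (1 + f t) / Real.sqrt t < r →
      ∀ᶠ s in 𝓝[<] t, f s ≤ f t + r * (t - s)) :
    1 + f 0 ≤ (1 + f t₁) * Real.exp (2 * (C + ε) * Real.sqrt t₁) := by
  set φ : ℝ → ℝ := fun τ => f (t₁ - τ) with hφ
  set B : ℝ → ℝ := fun τ =>
    (1 + f t₁) * Real.exp (2 * (C + ε) * (Real.sqrt t₁ - Real.sqrt (t₁ - τ))) - 1 with hB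
  have hA : 0 < 1 + f t₁ := by linarith [hf0 t₁ ⟨ht₁.le, le_rfl⟩]
  have hφc : ContinuousOn φ (Set.Icc 0 t₁) :=
    hf.comp (continuous_const.sub continuous_id).continuousOn
      (fun τ hτ => ⟨by linarith [hτ.2], by linarith [hτ.1]⟩)
  have hBc : ContinuousOn B (Set.Icc 0 t₁) := by
    have : Continuous B := by
      simp only [hB]
      fun_prop
    exact this.continuousOn
  have key := image_le_of_liminf_slope_right_lt_deriv_boundary' (f := φ)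
    (f' := fun τ => C * (1 + φ τ) / Real.sqrt (t₁ - τ)) (a := 0) (b := t₁) hφc ?_ (B := B)
    (B' := fun τ => (1 + B τ) * ((C + ε) / Real.sqrt (t₁ - τ))) ?_ hBc ?_ ?_
    (Set.right_mem_Icc.2 ht₁.le)
  · simp only [hφ, hB, sub_self, Real.sqrt_zero, sub_zero] at key
    linarith
  · intro τ hτ r hr
    have ht : t₁ - τ ∈ Set.Ioc 0 t₁ := ⟨by linarith [hτ.2], by linarith [hτ.1]⟩
    obtain ⟨r', hr'1, hr'2⟩ := exists_between hr
    have h1 := hD (t₁ - τ) ht r' hr'1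
    have htend : Filter.Tendsto (fun τ' => t₁ - τ') (𝓝[>] τ) (𝓝[<] (t₁ - τ)) := by
      refine tendsto_nhdsWithin_of_tendsto_nhds_of_eventually_within _
        ((continuous_const.sub continuous_id).continuousAt.tendsto.mono_left nhdsWithin_le_nhds) ?_
      filter_upwards [self_mem_nhdsWithin] with τ' hτ'
      exact sub_lt_sub_left hτ' t₁
    refine Filter.Eventually.frequently ?_
    filter_upwards [htend.eventually h1, self_mem_nhdsWithin] with τ' h2 hτ'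
    have hpos : 0 < τ' - τ := sub_pos.2 hτ'
    rw [slope_def_field]
    refine lt_of_le_of_lt ?_ hr'2
    rw [div_le_iff₀ hpos]
    have : f (t₁ - τ') ≤ f (t₁ - τ) + r' * (t₁ - τ - (t₁ - τ')) := h2
    simp only [hφ]
    linarith
  · simp only [hφ, hB, sub_zero, sub_self, mul_zero, Real.exp_zero, mul_one]
    linarith
  · intro τ hτ
    have hpos : 0 < t₁ - τ := by linarith [hτ.2]
    have h1 : HasDerivAt (fun τ' => Real.sqrt (t₁ - τ')) (-1 / (2 * Real.sqrt (t₁ - τ))) τ :=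
      ((hasDerivAt_id τ).const_sub t₁).sqrt hpos.ne'
    have h2 : HasDerivAt (fun τ' => 2 * (C + ε) * (Real.sqrt t₁ - Real.sqrt (t₁ - τ')))
        (2 * (C + ε) * -(-1 / (2 * Real.sqrt (t₁ - τ)))) τ :=
      (h1.const_sub (Real.sqrt t₁)).const_mul _
    have h3 := ((h2.exp).const_mul (1 + f t₁)).sub_const 1
    refine HasDerivAt.hasDerivWithinAt ?_
    convert h3 using 1
    simp only [hB]
    have hs : Real.sqrt (t₁ - τ) ≠ 0 := (Real.sqrt_pos.2 hpos).ne'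
    field_simp
    ring
  · intro τ hτ he
    have hpos : 0 < t₁ - τ := by linarith [hτ.2]
    have hs : 0 < Real.sqrt (t₁ - τ) := Real.sqrt_pos.2 hpos
    have hφ0 : 0 ≤ φ τ := hf0 _ ⟨hpos.le, by linarith [hτ.1]⟩
    show C * (1 + φ τ) / Real.sqrt (t₁ - τ) < (1 + B τ) * ((C + ε) / Real.sqrt (t₁ - τ))
    rw [← he, ← mul_div_assoc, div_lt_div_iff_of_pos_right hs]
    nlinarith

theorem h1b_gronwall {f : ℝ → ℝ} {C t₁ : ℝ} (hC : 0 ≤ C) (ht₁ : 0 ≤ t₁)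
    (hf : ContinuousOn f (Set.Icc 0 t₁)) (hf0 : ∀ t ∈ Set.Icc 0 t₁, 0 ≤ f t)
    (hD : ∀ t ∈ Set.Ioc 0 t₁, ∀ r : ℝ, C * (1 + f t) / Real.sqrt t < r →
      ∀ᶠ s in 𝓝[<] t, f s ≤ f t + r * (t - s)) :
    1 + f 0 ≤ (1 + f t₁) * Real.exp (2 * C * Real.sqrt t₁) := by
  rcases ht₁.eq_or_lt with h0 | hpos
  · rw [← h0]
    simp
  · have hlim : Filter.Tendsto (fun ε : ℝ => (1 + f t₁) * Real.exp (2 * (C + ε) * Real.sqrt t₁))
        (𝓝[>] 0) (𝓝 ((1 + f t₁) * Real.exp (2 * (C + 0) * Real.sqrt t₁))) := by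
      have : Continuous fun ε : ℝ => (1 + f t₁) * Real.exp (2 * (C + ε) * Real.sqrt t₁) := by
        fun_prop
      exact this.continuousAt.tendsto.mono_left nhdsWithin_le_nhds
    rw [add_zero] at hlim
    refine ge_of_tendsto hlim ?_
    filter_upwards [self_mem_nhdsWithin] with ε hε
    exact h1b_gronwall_eps hC hpos hε hf hf0 hD

variable {V : Type} [NormedAddCommGroup V] [NormedSpace ℝ V] [FiniteDimensional ℝ V]
variable [MeasurableSpace V] [BorelSpace V]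
variable {n : ℕ} {𝓜 : CMfd V (Fin n)} {g : HFam V (Fin n)} {o : V}

/-- the exit distance `l_L(t)`: the `h_t`-distance from `o` to the complement of the initial ball `B_g(o, L)`. -/
noncomputable def exitD (D : FlowData 𝓜 g o) (L t : ℝ) : ℝ :=
  sInf ((fun p => hdist 𝓜 (D.h t) o p) '' {p | p ∈ 𝓜.carrier ∧ L ≤ hdist 𝓜 g o p})

variable (D : FlowData 𝓜 g o) {L s t : ℝ} {p : V}

section basic

theorem exitD_nonneg (L t : ℝ) : 0 ≤ exitD D L t := by
  apply Real.sInf_nonneg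
  rintro _ ⟨p, -, rfl⟩
  exact hdist_nonneg _ _ _ _

theorem exitD_le (hp : p ∈ 𝓜.carrier) (hL : L ≤ hdist 𝓜 g o p) :
    exitD D L t ≤ hdist 𝓜 (D.h t) o p := by
  refine csInf_le ⟨0, ?_⟩ ⟨p, ⟨hp, hL⟩, rfl⟩
  rintro _ ⟨q, -, rfl⟩
  exact hdist_nonneg _ _ _ _

/-- the exit distance is realised by a minimizing `h_t`-geodesic inside the closed initial ball. -/
theorem exitD_segment (I : InitialData 𝓜 g) (ho : o ∈ 𝓜.carrier) (hL : 0 < L) (ht : 0 ≤ t) :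
    ∃ (y : V) (γ : ℝ → V), y ∈ 𝓜.carrier ∧ L ≤ hdist 𝓜 g o y ∧ 0 < exitD D L t ∧
      IsMinGeod 𝓜 (D.h t) γ o y (exitD D L t) ∧
      ∀ r ∈ Set.Icc 0 (exitD D L t), γ r ∈ hcball 𝓜 g o L := by
  have hm : IsMetric 𝓜 g := I.kahler.toIsMetric
  obtain ⟨O, hO, hOeq⟩ := exists_isOpen_hball hm I.conn ho L
  have hK : IsCompact (hcball 𝓜 g o L) := I.proper o ho L
  have hiff : ∀ p ∈ 𝓜.carrier, (p ∉ O ↔ L ≤ hdist 𝓜 g o p) := by
    intro p hp
    constructor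
    · intro hpO
      by_contra hlt
      have : p ∈ 𝓜.carrier ∩ O := hOeq ▸ (⟨hp, not_le.1 hlt⟩ : p ∈ hball 𝓜 g o L)
      exact hpO this.2
    · intro hle hpO
      have : p ∈ hball 𝓜 g o L := hOeq ▸ (⟨hp, hpO⟩ : p ∈ 𝓜.carrier ∩ O)
      exact absurd this.2 (not_lt.2 hle)
  obtain ⟨p₀, hp₀, hp₀L⟩ := exists_hdist_eq hm I.conn I.proper I.noncompact ho hL.le
  have hk : IsKahler 𝓜 (D.h t) := D.kahler t ht
  obtain ⟨y, γ, hyM, hyO, hmin, hγ, hγO⟩ := exists_exit_segment hk I.conn hO hK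
    (hcball_subset_carrier 𝓜 g o L) (hOeq ▸ hball_subset_hcball 𝓜 g o L)
    (hOeq ▸ mem_hball_self ho hL) ⟨p₀, hp₀, (hiff p₀ hp₀).2 hp₀L.ge⟩
  have hyL : L ≤ hdist 𝓜 g o y := (hiff y hyM).1 hyO
  have he : exitD D L t = hdist 𝓜 (D.h t) o y := by
    refine IsLeast.csInf_eq ⟨⟨y, ⟨hyM, hyL⟩, rfl⟩, ?_⟩
    rintro _ ⟨p, ⟨hp, hpL⟩, rfl⟩
    exact hmin p hp ((hiff p hp).2 hpL)
  have hne : o ≠ y := by
    rintro rfl
    rw [hdist_self ho] at hyL
    linarith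
  have hpos : 0 < hdist 𝓜 (D.h t) o y := hdist_pos (fc_metric D ht) I.conn ho hyM hne
  rw [he]
  refine ⟨y, γ, hyM, hyL, hpos, hγ, ?_⟩
  have hlt : ∀ r ∈ Set.Ico 0 (hdist 𝓜 (D.h t) o y), γ r ∈ hcball 𝓜 g o L := by
    intro r hr
    have h1 : γ r ∈ 𝓜.carrier ∩ O := ⟨hγ.mem_carrier ⟨hr.1, hr.2.le⟩, hγO r hr⟩
    rw [← hOeq] at h1
    exact hball_subset_hcball 𝓜 g o L h1
  intro r hr
  rcases hr.2.eq_or_lt with h | h
  · obtain ⟨⟨ε, hε, hg⟩, -⟩ := hγ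
    have hcont : ContinuousAt γ r :=
      (hg.differentiableAt isOpen_Ioo ⟨by linarith [hr.1], by linarith⟩).continuousAt
    refine hK.isClosed.mem_of_tendsto (hcont.tendsto.mono_left
      (nhdsWithin_le_nhds (s := Set.Iio r))) ?_
    filter_upwards [Ioo_mem_nhdsLT (h ▸ hpos : 0 < r)] with r' hr'
    exact hlt r' ⟨hr'.1.le, h ▸ hr'.2⟩
  · exact hlt r ⟨hr.1, h⟩

theorem exitD_zero (I : InitialData 𝓜 g) (ho : o ∈ 𝓜.carrier) (hL : 0 < L) : L ≤ exitD D L 0 := by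
  obtain ⟨p₀, hp₀, hp₀L⟩ := exists_hdist_eq I.kahler.toIsMetric I.conn I.proper I.noncompact ho hL.le
  refine le_csInf ⟨_, p₀, ⟨hp₀, hp₀L.ge⟩, rfl⟩ ?_
  rintro _ ⟨p, ⟨hp, hpL⟩, rfl⟩
  show L ≤ hdist 𝓜 (D.h 0) o p
  rw [h1b_hdist_zero D I ho hp]
  exact hpL

theorem exitD_anti (I : InitialData 𝓜 g) (ho : o ∈ 𝓜.carrier) (H : HarnackA D) (hL : 0 < L)
    (hs : 0 ≤ s) (hst : s ≤ t) : exitD D L t ≤ exitD D L s := by
  obtain ⟨y, γ, hyM, hyL, -, hγ, -⟩ := exitD_segment D I ho hL hs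
  calc exitD D L t ≤ hdist 𝓜 (D.h t) o y := exitD_le D hyM hyL
    _ ≤ hdist 𝓜 (D.h s) o y := h1b_hdist_anti D I H hs hst ho hyM
    _ = exitD D L s := hγ.2.2.2.1.symm

end basic

section time

theorem exitD_le_len (I : InitialData 𝓜 g) (ho : o ∈ 𝓜.carrier) {y : V} {γ : ℝ → V} {l : ℝ}
    (hy : y ∈ 𝓜.carrier) (hyL : L ≤ hdist 𝓜 g o y) (hl : 0 ≤ l) (hγ : SegIn 𝓜 (hcball 𝓜 g o L) γ l)
    (h0 : γ 0 = o) (h1 : γ l = y) (hs : 0 ≤ s) : exitD D L s ≤ len 𝓜 (D.h s) γ 0 l := by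
  have h2 := hγ.hdist_le_len hl (fc_metric D hs)
  rw [h0, h1] at h2
  exact (exitD_le D hy hyL).trans h2

theorem exitD_le_exp (I : InitialData 𝓜 g) (ho : o ∈ 𝓜.carrier) (H : HarnackA D) (hL : 0 < L)
    (T : ℝ) : ∃ Λ : ℝ, 0 ≤ Λ ∧ ∀ s t : ℝ, 0 ≤ s → s ≤ t → t ≤ T →
      exitD D L s ≤ Real.exp (Λ * (t - s) / 2) * exitD D L t := by
  obtain ⟨Λ, hΛ0, hΛ⟩ := h1b_R_bdd D (I.proper o ho L) (hcball_subset_carrier 𝓜 g o L) T
  refine ⟨Λ, hΛ0, fun s t hs hst htT => ?_⟩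
  have ht : 0 ≤ t := hs.trans hst
  obtain ⟨y, γ, hyM, hyL, hl, hγ, hmem⟩ := exitD_segment D I ho hL ht
  have hseg : SegIn 𝓜 (hcball 𝓜 g o L) γ (exitD D L t) := hγ.segIn hmem
  calc exitD D L s ≤ len 𝓜 (D.h s) γ 0 (exitD D L t) :=
        exitD_le_len D I ho hyM hyL hl.le hseg hγ.2.1 hγ.2.2.1 hs
    _ ≤ Real.exp (Λ * (t - s) / 2) * len 𝓜 (D.h t) γ 0 (exitD D L t) :=
        h1b_len_le_exp D I H hΛ (hcball_subset_carrier 𝓜 g o L) hseg hl.le hs hst htT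
    _ = Real.exp (Λ * (t - s) / 2) * exitD D L t := by
        have hk : IsKahler 𝓜 (D.h t) := D.kahler t ht
        rw [hγ.len_eq hk hl]

theorem exitD_continuousOn (I : InitialData 𝓜 g) (ho : o ∈ 𝓜.carrier) (H : HarnackA D)
    (hL : 0 < L) (T : ℝ) : ContinuousOn (exitD D L) (Set.Icc 0 T) := by
  obtain ⟨Λ, hΛ0, hΛ⟩ := exitD_le_exp D I ho H hL T
  set M₀ := exitD D L 0 with hM₀
  have hM₀0 : 0 ≤ M₀ := exitD_nonneg D L 0
  have key : ∀ s t : ℝ, 0 ≤ s → s ≤ t → t ≤ T →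
      |exitD D L s - exitD D L t| ≤ M₀ * (Real.exp (Λ * |s - t| / 2) - 1) := by
    intro s t hs hst htT
    have h1 := exitD_anti D I ho H hL hs hst
    have h2 := hΛ s t hs hst htT
    have h3 : exitD D L t ≤ M₀ := exitD_anti D I ho H hL le_rfl (hs.trans hst)
    have h4 : |s - t| = t - s := by rw [abs_sub_comm, abs_of_nonneg (sub_nonneg.2 hst)]
    have h5 : 0 ≤ Real.exp (Λ * (t - s) / 2) - 1 :=
      sub_nonneg.2 (Real.one_le_exp (by have := sub_nonneg.2 hst; positivity))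
    rw [abs_of_nonneg (sub_nonneg.2 h1), h4]
    have h6 := mul_le_mul_of_nonneg_right h3 h5
    nlinarith
  have key' : ∀ s ∈ Set.Icc 0 T, ∀ t ∈ Set.Icc 0 T,
      |exitD D L s - exitD D L t| ≤ M₀ * (Real.exp (Λ * |s - t| / 2) - 1) := by
    intro s hs t ht
    rcases le_total s t with h | h
    · exact key s t hs.1 h ht.2
    · rw [abs_sub_comm, abs_sub_comm s t]
      exact key t s ht.1 h hs.2
  intro t₀ ht₀
  unfold ContinuousWithinAt
  rw [tendsto_iff_norm_sub_tendsto_zero]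
  have hlim : Filter.Tendsto (fun s => M₀ * (Real.exp (Λ * |s - t₀| / 2) - 1))
      (𝓝[Set.Icc 0 T] t₀) (𝓝 (M₀ * (Real.exp (Λ * |t₀ - t₀| / 2) - 1))) := by
    have : Continuous fun s => M₀ * (Real.exp (Λ * |s - t₀| / 2) - 1) := by fun_prop
    exact this.continuousAt.tendsto.mono_left nhdsWithin_le_nhds
  simp only [sub_self, abs_zero, mul_zero, zero_div, Real.exp_zero] at hlim
  refine squeeze_zero' (Filter.Eventually.of_forall fun _ => norm_nonneg _) ?_ hlim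
  filter_upwards [self_mem_nhdsWithin] with s hs
  exact key' s hs t₀ ht₀

/-- `l_L' ≥ - C (1 + l_L) / √t` as a left Dini inequality; `C` does not depend on `L`. -/
theorem exitD_dini (I : InitialData 𝓜 g) (ho : o ∈ 𝓜.carrier) (H : HarnackA D) (T : ℝ) :
    ∃ C : ℝ, 0 ≤ C ∧ ∀ L : ℝ, 0 < L → ∀ t ∈ Set.Ioc (0 : ℝ) T, ∀ r : ℝ,
      C * (1 + exitD D L t) / Real.sqrt t < r →
      ∀ᶠ s in 𝓝[<] t, exitD D L s ≤ exitD D L t + r * (t - s) := by
  obtain ⟨C, hC, hint⟩ := h1b_int_ric_flow D I ho H T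
  refine ⟨C, hC, fun L hL t ht r hr => ?_⟩
  obtain ⟨y, γ, hyM, hyL, hl, hγ, hmem⟩ := exitD_segment D I ho hL ht.1.le
  set l := exitD D L t with hldef
  have hseg : SegIn 𝓜 (hcball 𝓜 g o L) γ l := hγ.segIn hmem
  have hk : IsKahler 𝓜 (D.h t) := D.kahler t ht.1.le
  have hder := h1b_len_dt D I H (I.proper o ho L) (hcball_subset_carrier 𝓜 g o L) hseg hl.le ht.1
    (fun r hr => hγ.ambQ_eq_one hk hl hr)
  set J := ∫ r in (0 : ℝ)..l, ambQ 𝓜 (D.ric t) (γ r) (deriv γ r) with hJ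
  have hJle : J ≤ C * (1 + l) / Real.sqrt t := hint t ht.1 ht.2 γ y l hγ hl
  have hr0 : 0 < r := lt_of_le_of_lt (by positivity) hr
  have hJr : -r < -(1 / 2) * J := by
    rcases le_total J 0 with h | h
    · linarith
    · linarith
  have hslope : Filter.Tendsto (slope (fun s => len 𝓜 (D.h s) γ 0 l) t) (𝓝[<] t)
      (𝓝 (-(1 / 2) * J)) := (hasDerivAt_iff_tendsto_slope.1 hder).mono_left
    (nhdsWithin_mono t (fun s (hs : s < t) => hs.ne))
  filter_upwards [hslope.eventually (Ioi_mem_nhds hJr), Ioo_mem_nhdsLT ht.1] with s hs1 hs2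
  have hs1 : -r < slope (fun s => len 𝓜 (D.h s) γ 0 l) t s := hs1
  have hneg : s - t < 0 := sub_neg.2 hs2.2
  rw [slope_def_field, lt_div_iff_of_neg hneg, hγ.len_eq hk hl] at hs1
  have h1 := exitD_le_len D I ho hyM hyL hl.le hseg hγ.2.1 hγ.2.2.1 hs2.1.le
  linarith

end time

/-- **(7.6)** -/
theorem exitD_lower (I : InitialData 𝓜 g) (ho : o ∈ 𝓜.carrier) (H : HarnackA D) (T : ℝ) :
    ∃ C : ℝ, 0 ≤ C ∧ ∀ L : ℝ, 0 < L → ∀ t ∈ Set.Icc (0 : ℝ) T,
      1 + L ≤ (1 + exitD D L t) * Real.exp (2 * C * Real.sqrt t) := by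
  obtain ⟨C, hC, hdini⟩ := exitD_dini D I ho H T
  refine ⟨C, hC, fun L hL t ht => ?_⟩
  have h1 := h1b_gronwall (f := exitD D L) hC ht.1
    ((exitD_continuousOn D I ho H hL T).mono (Set.Icc_subset_Icc_right ht.2))
    (fun s _ => exitD_nonneg D L s)
    (fun s hs r hr => hdini L hL s ⟨hs.1, hs.2.trans ht.2⟩ r hr)
  have h0 := exitD_zero D I ho hL
  linarith

end Claimed.Agent.R316

/-!
# Row 316, BP-S7-1b: completeness of `h_t`, Proposition 7.1 (glue, proved from the leaves)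
-/

set_option autoImplicit false
set_option linter.unusedSectionVars false
open scoped ContDiff ComplexOrder Topology Matrix

namespace Claimed.Agent.R316

variable {V : Type} [NormedAddCommGroup V] [NormedSpace ℝ V] [FiniteDimensional ℝ V]
variable [MeasurableSpace V] [BorelSpace V]
variable {n : ℕ} {𝓜 : CMfd V (Fin n)} {g : HFam V (Fin n)} {o : V}
variable (D : FlowData 𝓜 g o)

/-- every finite `h_t`-ball is trapped in an initial ball. -/
theorem h1b_dist_lower (I : InitialData 𝓜 g) (ho : o ∈ 𝓜.carrier) (H : HarnackA D) (T : ℝ) :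
    ∃ C : ℝ, 0 ≤ C ∧ ∀ t ∈ Set.Icc (0 : ℝ) T, ∀ p ∈ 𝓜.carrier,
      1 + hdist 𝓜 g o p ≤ (1 + hdist 𝓜 (D.h t) o p) * Real.exp (2 * C * Real.sqrt t) := by
  obtain ⟨C, hC, h⟩ := exitD_lower D I ho H T
  refine ⟨C, hC, fun t ht p hp => ?_⟩
  have hd := hdist_nonneg 𝓜 (D.h t) o p
  have he : 1 ≤ Real.exp (2 * C * Real.sqrt t) := Real.one_le_exp (by positivity)
  rcases (hdist_nonneg 𝓜 g o p).eq_or_lt with h0 | h0
  · rw [← h0]
    nlinarith
  · have h1 := h _ h0 t ht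
    have h2 : exitD D (hdist 𝓜 g o p) t ≤ hdist 𝓜 (D.h t) o p := exitD_le D hp le_rfl
    have h3 : (1 + exitD D (hdist 𝓜 g o p) t) * Real.exp (2 * C * Real.sqrt t) ≤
        (1 + hdist 𝓜 (D.h t) o p) * Real.exp (2 * C * Real.sqrt t) :=
      mul_le_mul_of_nonneg_right (by linarith) (by linarith)
    linarith

/-- completeness of `h_t`. -/
theorem h1b_proper (I : InitialData 𝓜 g) (ho : o ∈ 𝓜.carrier) (H : HarnackA D) {t : ℝ}
    (ht : 0 ≤ t) : IsProperMetric 𝓜 (D.h t) := by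
  intro x hx r
  obtain ⟨C, _, h⟩ := h1b_dist_lower D I ho H t
  obtain ⟨F, hF, hS⟩ := exists_isClosed_hcball (fc_metric D ht) I.conn hx r
  refine I.proper.isCompact_of_isClosed ho hF hS
    (R := (1 + (hdist 𝓜 (D.h t) o x + r)) * Real.exp (2 * C * Real.sqrt t)) ?_
  intro p hp
  refine ⟨hp.1, ?_⟩
  have h1 := h t ⟨ht, le_rfl⟩ p hp.1
  have h2 := hdist_triangle (fc_metric D ht) I.conn ho hx hp.1
  have h3 : hdist 𝓜 (D.h t) o p ≤ hdist 𝓜 (D.h t) o x + r := h2.trans (by linarith [hp.2])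
  have h4 : (1 + hdist 𝓜 (D.h t) o p) * Real.exp (2 * C * Real.sqrt t) ≤
      (1 + (hdist 𝓜 (D.h t) o x + r)) * Real.exp (2 * C * Real.sqrt t) :=
    mul_le_mul_of_nonneg_right (by linarith) (Real.exp_pos _).le
  linarith

/-- **Proposition 7.1.** -/
theorem st71 : St71 D :=
  st71_of_parts D
    (fun I _ H => ⟨1, fun _ _ ht htt' _ hx _ hy => h1b_integrated D I H ht htt' hx hy⟩)
    (fun I ho H _ ht => h1b_proper D I ho H ht)

end Claimed.Agent.R316
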